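import Vale.Agent.P066.Colour.Defs

/-!
Closed forms of the one- and two-colour atoms and their transfer rules.
-/

namespace Vale.Agent.P066.Colour

open Finset

variable {R : Type*} [CommRing R] {N : ℕ}

/-- The `q`-integer `1 + q + ⋯ + q^(m-1)`. -/
def qint (q : R) (m : ℕ) : R := ∑ j ∈ range m, q ^ j

/-- The elementary symmetric function of degree `a`. -/
def esym (x : Fin N → R) (a : ℕ) : R :=
  ∑ T ∈ powersetCard a (univ : Finset (Fin N)), ∏ i ∈ T, x i

/-- The atom with one active vertex: `x_c e_a` in the variables weighted as seen from `c`. -/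
def phi (q : R) (x : Fin N → R) (a : ℕ) : Fin N → R :=
  fun c => x c * esym (fun i => wt q c i * x i) a

/-- The symmetric atom with two active vertices. -/
def F2 (q : R) (x : Fin N → R) (a : ℕ) : Fin N → Fin N → R :=
  fun c d => x c * x d * wt q c d * esym (fun i => wt q c i * wt q d i * x i) a

/-- States with two active vertices fixed by the Hecke operator. -/
def IsSym (q : R) (G : Fin N → Fin N → R) : Prop :=
  ∃ H : Fin N → Fin N → R, (∀ c d, H c d = H d c) ∧ ∀ c d, G c d = wt q c d * H c d

theorem wt_self (q : R) (c : Fin N) : wt q c c = 0 := by simp [wt]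

theorem wt_lt (q : R) {c d : Fin N} (h : c < d) : wt q c d = 1 := by
  simp [wt, h.ne, h.le]

theorem wt_gt (q : R) {c d : Fin N} (h : d < c) : wt q c d = q := by
  simp [wt, h.ne', h]

theorem qint_succ (q : R) (m : ℕ) : qint q (m + 1) = qint q m + q ^ m := sum_range_succ _ _

theorem isSym_F2 (q : R) (x : Fin N → R) (a : ℕ) : IsSym q (F2 q x a) :=
  ⟨fun c d => x c * x d * esym (fun i => wt q c i * wt q d i * x i) a,
    fun c d => by
      have : (fun i => wt q c i * wt q d i * x i) = fun i => wt q d i * wt q c i * x i := by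
        funext i; ring
      beta_reduce
      rw [this]; ring,
    fun c d => by unfold F2; ring⟩

/-- Pull one element out of an `(a+1)`-subset. -/
theorem sum_pull (a : ℕ) (G : Fin N → Finset (Fin N) → R) (h0 : ∀ d U, d ∈ U → G d U = 0) :
    ∑ d, ∑ U ∈ powersetCard a (univ : Finset (Fin N)), G d U =
      ∑ T ∈ powersetCard (a + 1) (univ : Finset (Fin N)), ∑ d ∈ T, G d (T.erase d) := by
  have h1 : ∀ d, ∑ U ∈ powersetCard a (univ : Finset (Fin N)), G d U =
      ∑ U ∈ (powersetCard a (univ : Finset (Fin N))).filter (fun U => d ∉ U), G d U := fun d =>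
    (sum_filter_of_ne (p := fun U => d ∉ U) fun U _ hne hd => hne (h0 d U hd)).symm
  simp only [h1]
  rw [sum_sigma', sum_sigma']
  refine sum_bij' (fun p _ => ⟨insert p.1 p.2, p.1⟩) (fun p _ => ⟨p.2, p.1.erase p.2⟩)
    ?_ ?_ ?_ ?_ ?_
  · rintro ⟨d, U⟩ hp
    simp only [mem_sigma, mem_univ, true_and, mem_filter, mem_powersetCard] at hp
    simp [card_insert_of_notMem hp.2, hp.1.2]
  · rintro ⟨T, d⟩ hp
    simp only [mem_sigma, mem_powersetCard] at hp
    simp [card_erase_of_mem hp.2, hp.1.2]
  · rintro ⟨d, U⟩ hp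
    simp only [mem_sigma, mem_univ, true_and, mem_filter] at hp
    simp [erase_insert hp.2]
  · rintro ⟨T, d⟩ hp
    simp only [mem_sigma] at hp
    simp [insert_erase hp.2]
  · rintro ⟨d, U⟩ hp
    simp only [mem_sigma, mem_univ, true_and, mem_filter] at hp
    simp [erase_insert hp.2]

/-- Summing over the place of one marked element of a set gives a `q`-integer. -/
theorem sum_rank (q : R) (T : Finset (Fin N)) :
    ∑ d ∈ T, ∏ i ∈ T.erase d, wt q d i = qint q T.card := by
  induction T using Finset.induction_on_max with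
  | empty => simp [qint]
  | insert a T hlt ih =>
    have ha : a ∉ T := fun h => lt_irrefl a (hlt a h)
    rw [sum_insert ha, card_insert_of_notMem ha, qint_succ, erase_insert ha,
      prod_congr rfl fun i hi => wt_gt q (hlt i hi), prod_const, ← ih, add_comm]
    congr 1
    refine sum_congr rfl fun d hd => ?_
    rw [erase_insert_of_ne (hlt d hd).ne', prod_insert (fun h => ha (mem_of_mem_erase h)),
      wt_lt q (hlt d hd), one_mul]

/-- The same with the edge weights from an outside colour `c`. -/
theorem sum_rank_wt (q : R) (c : Fin N) (T : Finset (Fin N)) :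
    ∑ d ∈ T, wt q c d * ∏ i ∈ T.erase d, wt q d i =
      qint q T.card - 1 + ∏ i ∈ T, wt q c i := by
  induction T using Finset.induction_on_max with
  | empty => simp [qint]
  | insert a T hlt ih =>
    have ha : a ∉ T := fun h => lt_irrefl a (hlt a h)
    have hrest : ∑ d ∈ T, wt q c d * ∏ i ∈ (insert a T).erase d, wt q d i =
        ∑ d ∈ T, wt q c d * ∏ i ∈ T.erase d, wt q d i := by
      refine sum_congr rfl fun d hd => ?_
      rw [erase_insert_of_ne (hlt d hd).ne', prod_insert (fun h => ha (mem_of_mem_erase h)),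
        wt_lt q (hlt d hd), one_mul]
    rw [sum_insert ha, hrest, ih, erase_insert ha,
      prod_congr rfl fun i hi => wt_gt q (hlt i hi), prod_const, prod_insert ha,
      card_insert_of_notMem ha, qint_succ]
    rcases lt_or_ge c a with h | h
    · rw [wt_lt q h]; ring
    · rw [prod_congr rfl fun i hi => wt_gt q (lt_of_lt_of_le (hlt i hi) h), prod_const]
      ring

theorem sum_phi (q : R) (x : Fin N → R) (a : ℕ) (u : Fin N → R) :
    ∑ d, u d * phi q x a d =
      ∑ T ∈ powersetCard (a + 1) (univ : Finset (Fin N)),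
        (∏ i ∈ T, x i) * ∑ d ∈ T, u d * ∏ i ∈ T.erase d, wt q d i := by
  simp only [phi, esym, mul_sum]
  rw [sum_pull]
  · refine sum_congr rfl fun T _ => sum_congr rfl fun d hd => ?_
    rw [prod_mul_distrib, ← mul_prod_erase T x hd]
    ring
  · intro d U hd
    rw [prod_eq_zero hd (by rw [wt_self, zero_mul])]
    ring

theorem phi_zero (q : R) (x : Fin N → R) : phi q x 0 = A0 x 1 := by
  funext c
  simp [phi, esym, A0]

/-- `D φ_a = [a+1] e_{a+1}`. -/
theorem D1_phi (q : R) (x : Fin N → R) (a : ℕ) :
    D1 (phi q x a) = qint q (a + 1) * esym x (a + 1) := by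
  have := sum_phi q x a (fun _ => 1)
  simp only [one_mul] at this
  rw [D1, this, esym, mul_sum]
  refine sum_congr rfl fun T hT => ?_
  rw [sum_rank, (mem_powersetCard.1 hT).2, mul_comm]

/-- `P φ_a = φ_{a+1} + ([a+1] - 1) e_{a+1} φ_0`. -/
theorem P1_phi (q : R) (x : Fin N → R) (a : ℕ) :
    P1 q x (phi q x a) =
      fun c => phi q x (a + 1) c + (qint q (a + 1) - 1) * esym x (a + 1) * x c := by
  funext c
  rw [P1, sum_phi q x a (wt q c), phi, esym, esym, mul_sum, mul_sum, mul_sum, sum_mul,
    ← sum_add_distrib]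
  refine sum_congr rfl fun T hT => ?_
  rw [sum_rank_wt, (mem_powersetCard.1 hT).2, prod_mul_distrib]
  ring

theorem P1_eq (q : R) (x : Fin N → R) (u : Fin N → R) :
    P1 q x u = fun c => A0 x (D1 u) c + yop q x u c := by
  funext c
  simp only [P1, A0, D1, yop, sub_mul, one_mul, sum_sub_distrib, mul_sub]
  ring

/-- `y φ_a = φ_{a+1} - e_{a+1} φ_0`. -/
theorem yop_phi (q : R) (x : Fin N → R) (a : ℕ) :
    yop q x (phi q x a) = fun c => phi q x (a + 1) c - esym x (a + 1) * x c := by
  funext c
  have h1 := congrFun (P1_eq q x (phi q x a)) c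
  rw [P1_phi, A0, D1_phi] at h1
  linear_combination (-1 : R) * h1

/-- `D f_a = [a+1] φ_{a+1}`. -/
theorem D2_F2 (q : R) (x : Fin N → R) (a : ℕ) :
    D2 (F2 q x a) = fun c => qint q (a + 1) * phi q x (a + 1) c := by
  funext c
  simp only [D2, F2, phi, esym, mul_sum]
  rw [sum_pull]
  · refine sum_congr rfl fun T hT => ?_
    have hcard := (mem_powersetCard.1 hT).2
    rw [← hcard, ← sum_rank q T, sum_mul]
    refine sum_congr rfl fun d hd => ?_
    rw [← mul_prod_erase T (fun i => wt q c i * x i) hd]
    simp only [prod_mul_distrib]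
    ring
  · intro d U hd
    rw [prod_eq_zero hd (by rw [wt_self, mul_zero, zero_mul])]
    ring

theorem D2_A1 (q : R) (x : Fin N → R) (u : Fin N → R) : D2 (A1 q x u) = P1 q x u := by
  funext c
  simp only [D2, A1, P1, mul_sum, mul_assoc]

/-- `D P G = A D D G + [2] y D G` for fixed `G`. -/
theorem D2_P2 (q : R) (x : Fin N → R) (G : Fin N → Fin N → R) (hG : IsSym q G) :
    D2 (P2 q x G) = fun c => A0 x (D1 (D2 G)) c + (1 + q) * yop q x (D2 G) c := by
  obtain ⟨H, hH, hG⟩ := hG
  funext c
  rw [← sub_eq_zero]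
  have key : ∑ p : Fin N × Fin N,
      (wt q c p.1 * wt q c p.2 - 1 - (1 + q) * (wt q c p.1 - 1)) *
        (wt q p.1 p.2 * H p.1 p.2) = 0 := by
    refine sum_involution (fun p _ => p.swap) ?_ ?_ (fun p _ => mem_univ _) (fun p _ => rfl)
    · rintro ⟨d, g⟩ _
      simp only [Prod.swap_prod_mk]
      rw [hH g d]
      rcases lt_trichotomy d g with hdg | rfl | hdg
      · rw [wt_lt q hdg, wt_gt q hdg]
        rcases lt_trichotomy c d with h | rfl | h
        · rw [wt_lt q h, wt_lt q (h.trans hdg)]; ring
        · rw [wt_self, wt_lt q hdg]; ring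
        · rw [wt_gt q h]
          rcases lt_trichotomy c g with h' | rfl | h'
          · rw [wt_lt q h']; ring
          · rw [wt_self]; ring
          · rw [wt_gt q h']; ring
      · rw [wt_self]; ring
      · rw [wt_lt q hdg, wt_gt q hdg]
        rcases lt_trichotomy c g with h | rfl | h
        · rw [wt_lt q h, wt_lt q (h.trans hdg)]; ring
        · rw [wt_self, wt_lt q hdg]; ring
        · rw [wt_gt q h]
          rcases lt_trichotomy c d with h' | rfl | h'
          · rw [wt_lt q h']; ring
          · rw [wt_self]; ring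
          · rw [wt_gt q h']; ring
    · rintro ⟨d, g⟩ _ hne hswap
      simp only [Prod.swap_prod_mk, Prod.mk.injEq] at hswap
      obtain ⟨rfl, -⟩ := hswap
      exact hne (by rw [wt_self]; ring)
  rw [Fintype.sum_prod_type] at key
  rw [← mul_zero (x c), ← key]
  simp only [D2, P2, A0, D1, yop, hG, mul_sum, ← sum_add_distrib, ← sum_sub_distrib]
  refine sum_congr rfl fun d _ => sum_congr rfl fun g _ => ?_
  ring

end Vale.Agent.P066.Colour
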