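import Vale.Agent.P066.Colour.Kernel

/-!
The atoms `M_a = (T + q) A φ_a`, `G_a = M_a - q e_a F_0` and the rules for `Z`, `E`, `Q`, `D`.
-/

namespace Vale.Agent.P066.Colour

open Finset

variable {R : Type*} [CommRing R] {N : ℕ} (q : R) (x : Fin N → R)

/-- `M_a = (T + q) A φ_a`. -/
def mAt (a : ℕ) : V2 R N := opS q (opA q x (phi q x a))

/-- `G_a = M_a - q e_a F_0`. -/
def gAt (a : ℕ) : V2 R N := mAt q x a - (q * esym x a) • F2 q x 0

theorem qint_zero : qint q 0 = 0 := rfl

theorem qint_one : qint q 1 = 1 := by simp [qint]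

theorem qint_two : qint q 2 = 1 + q := by simp [qint, sum_range_succ]

theorem qint_succ' (m : ℕ) : qint q (m + 1) = 1 + q * qint q m := by
  rw [qint, sum_range_succ', qint, mul_sum]
  simp only [pow_zero, pow_succ']
  ring

theorem qint_add (a b : ℕ) : qint q (a + b) = qint q a + q ^ a * qint q b := by
  rw [qint, sum_range_add, qint, qint, mul_sum]
  simp only [pow_add]

theorem esym_zero : esym x 0 = 1 := by simp [esym]

theorem opA_phi_zero : opA q x (phi q x 0) = F2 q x 0 := by
  funext c d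
  change x c * wt q c d * (x d * esym _ 0) = x c * x d * wt q c d * esym _ 0
  rw [esym_zero, esym_zero]
  ring

theorem fixed_F2 (a : ℕ) : Fixed q (F2 q x a) := fixed_of_isSym q (isSym_F2 q x a)

theorem fixed_mAt (a : ℕ) : Fixed q (mAt q x a) := fixed_opS q _

theorem fixed_gAt (a : ℕ) : Fixed q (gAt q x a) :=
  (fixed_mAt q x a).sub ((fixed_F2 q x 0).smul _)

theorem mAt_eq (a : ℕ) : mAt q x a = gAt q x a + (q * esym x a) • F2 q x 0 := by
  rw [gAt, sub_add_cancel]

theorem mAt_zero : mAt q x 0 = (1 + q) • F2 q x 0 := by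
  rw [mAt, opA_phi_zero, (fixed_F2 q x 0).2]

theorem gAt_zero : gAt q x 0 = F2 q x 0 := by
  rw [gAt, mAt_zero, esym_zero]
  module

/-- `Z f_a = f_{a+1} - A φ_{a+1}`. -/
theorem opZ_F2 (a : ℕ) :
    opZ q x (F2 q x a) = F2 q x (a + 1) - opA q x (phi q x (a + 1)) := by
  funext c d
  change x c * wt q c d * ∑ g, (wt q c g - 1) * F2 q x a d g =
    F2 q x (a + 1) c d - x c * wt q c d * phi q x (a + 1) d
  simp only [F2, phi, esym, mul_sum]
  rw [sum_pull, ← sum_sub_distrib]
  · refine sum_congr rfl fun T hT => ?_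
    have h1 : ∀ g ∈ T, x c * wt q c d * ((wt q c g - 1) * (x d * x g * wt q d g *
        ∏ i ∈ T.erase g, wt q d i * wt q g i * x i)) =
        x c * x d * wt q c d * (∏ i ∈ T, wt q d i * x i) *
          (wt q c g * ∏ i ∈ T.erase g, wt q g i - ∏ i ∈ T.erase g, wt q g i) := fun g hg => by
      rw [← mul_prod_erase T (fun i => wt q d i * x i) hg]
      simp only [prod_mul_distrib]
      ring
    rw [sum_congr rfl h1, ← mul_sum, sum_sub_distrib, sum_rank, sum_rank_wt]
    simp only [prod_mul_distrib]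
    ring
  · intro g U hg
    rw [prod_eq_zero hg (by rw [wt_self, mul_zero, zero_mul])]
    ring

theorem sum_rank_wt2_aux (c d : Fin N) (hcd : c < d) (T : Finset (Fin N)) :
    ∑ g ∈ T, wt q c g * wt q d g * ∏ i ∈ T.erase g, wt q g i =
      qint q T.card - 1 - q + (∏ i ∈ T, wt q d i) + q * ∏ i ∈ T, wt q c i := by
  induction T using Finset.induction_on_max with
  | empty => simp [qint]; ring
  | insert a T hlt ih =>
    have ha : a ∉ T := fun h => lt_irrefl a (hlt a h)
    have hrest : ∑ g ∈ T, wt q c g * wt q d g * ∏ i ∈ (insert a T).erase g, wt q g i =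
        ∑ g ∈ T, wt q c g * wt q d g * ∏ i ∈ T.erase g, wt q g i := by
      refine sum_congr rfl fun g hg => ?_
      rw [erase_insert_of_ne (hlt g hg).ne', prod_insert (fun h => ha (mem_of_mem_erase h)),
        wt_lt q (hlt g hg), one_mul]
    rw [sum_insert ha, hrest, ih, erase_insert ha,
      prod_congr rfl fun i hi => wt_gt q (hlt i hi), prod_const, prod_insert ha,
      prod_insert ha, card_insert_of_notMem ha, qint_succ]
    have below : ∀ b : Fin N, a ≤ b → ∏ i ∈ T, wt q b i = q ^ T.card := fun b hb => by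
      rw [prod_congr rfl fun i hi => wt_gt q (lt_of_lt_of_le (hlt i hi) hb), prod_const]
    rcases lt_trichotomy a c with h | rfl | h
    · rw [below c h.le, below d (h.trans hcd).le, wt_gt q h, wt_gt q (h.trans hcd)]; ring
    · rw [below a le_rfl, below d hcd.le, wt_self, wt_gt q hcd]; ring
    · rw [wt_lt q h]
      rcases lt_trichotomy a d with h' | rfl | h'
      · rw [below d h'.le, wt_gt q h']; ring
      · rw [below a le_rfl, wt_self]; ring
      · rw [wt_lt q h']; ring

theorem sum_rank_wt2 (c d : Fin N) (T : Finset (Fin N)) :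
    wt q c d * ∑ g ∈ T, (wt q c g - 1) * wt q d g * ∏ i ∈ T.erase g, wt q g i =
      wt q c d * (wt q c d * (∏ i ∈ T, wt q d i) + wt q d c * (∏ i ∈ T, wt q c i) - q -
        ∏ i ∈ T, wt q d i) := by
  simp only [sub_mul, one_mul, sum_sub_distrib, sum_rank_wt]
  rcases lt_trichotomy c d with h | rfl | h
  · rw [sum_rank_wt2_aux q c d h, wt_lt q h, wt_gt q h]; ring
  · rw [wt_self]; ring
  · have h1 := sum_rank_wt2_aux q d c h T
    rw [sum_congr rfl fun g _ => show wt q c g * wt q d g * ∏ i ∈ T.erase g, wt q g i =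
      wt q d g * wt q c g * ∏ i ∈ T.erase g, wt q g i by ring, h1, wt_gt q h, wt_lt q h]
    ring

/-- `Z A φ_a = G_{a+1} - A φ_{a+1}`. -/
theorem opZ_Aphi (a : ℕ) :
    opZ q x (opA q x (phi q x a)) = gAt q x (a + 1) - opA q x (phi q x (a + 1)) := by
  funext c d
  change x c * wt q c d * ∑ g, (wt q c g - 1) * (x d * wt q d g * phi q x a g) =
    wt q c d * (x c * wt q c d * phi q x (a + 1) d + x d * wt q d c * phi q x (a + 1) c) -
      q * esym x (a + 1) * F2 q x 0 c d - x c * wt q c d * phi q x (a + 1) d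
  have h1 : ∀ g, (wt q c g - 1) * (x d * wt q d g * phi q x a g) =
      x d * ((wt q c g - 1) * wt q d g * phi q x a g) := fun g => by ring
  simp only [h1, ← mul_sum, sum_phi]
  simp only [phi, F2, esym_zero]
  simp only [esym, mul_sum, sum_mul, ← sum_add_distrib, ← sum_sub_distrib]
  refine sum_congr rfl fun T _ => ?_
  simp only [← mul_sum, prod_mul_distrib]
  linear_combination (x c * x d * ∏ i ∈ T, x i) * sum_rank_wt2 q c d T

theorem gAt_one : gAt q x 1 = F2 q x 1 := by
  have h1 := opZ_Aphi q x 0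
  rw [opA_phi_zero, opZ_F2] at h1
  exact (sub_left_inj.1 h1).symm

/-- `E f_a = [2] f_{a+1} - M_{a+1}`. -/
theorem opE_F2 (a : ℕ) :
    opE q x (F2 q x a) = (1 + q) • F2 q x (a + 1) - mAt q x (a + 1) := by
  change opS q (opZ q x (F2 q x a)) = _
  rw [opZ_F2, map_sub (opS q), (fixed_F2 q x _).2]
  rfl

/-- `Q f_a = f_{a+2} - G_{a+2}`. -/
theorem opQ_F2 (a : ℕ) : opQ q x (F2 q x a) = F2 q x (a + 2) - gAt q x (a + 2) := by
  change opZ q x (opZ q x (F2 q x a)) = _
  rw [opZ_F2, map_sub (opZ q x), opZ_F2, opZ_Aphi]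
  abel

theorem opE_gAt_zero :
    opE q x (gAt q x 0) = q • (gAt q x 1 - esym x 1 • F2 q x 0) := by
  rw [gAt_zero, opE_F2, mAt_eq, ← gAt_one]
  module

theorem opE_gAt (t : ℕ) :
    opE q x (gAt q x (t + 1)) =
      q • (gAt q x (t + 2) - esym x (t + 2) • F2 q x 0) + opQ q x (mAt q x t) := by
  have hF : ∀ a, F2 q x (a + 2) = gAt q x (a + 2) + opQ q x (F2 q x a) := fun a => by
    rw [opQ_F2]; abel
  rcases t with - | t
  · rw [gAt_one, opE_F2, mAt_eq, hF 0, mAt_zero, map_smul]
    module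
  · have h1 : gAt q x (t + 2) = F2 q x (t + 2) - opQ q x (F2 q x t) := by rw [opQ_F2]; abel
    rw [h1, map_sub (opE q x), opE_opQ, opE_F2, opE_F2, map_sub (opQ q x), map_smul,
      hF (t + 1), mAt_eq q x (t + 3)]
    module

theorem opD_F2 (a : ℕ) : opD (F2 q x a) = qint q (a + 1) • phi q x (a + 1) := by
  funext c
  exact congrFun (D2_F2 q x a) c

theorem phi_zero_apply (c : Fin N) : phi q x 0 c = x c := by
  rw [phi, esym_zero, mul_one]

theorem opD_Aphi (a : ℕ) :
    opD (opA q x (phi q x a)) =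
      phi q x (a + 1) + ((qint q (a + 1) - 1) * esym x (a + 1)) • phi q x 0 := by
  change D2 (A1 q x (phi q x a)) = _
  rw [D2_A1, P1_phi]
  funext c
  simp only [Pi.add_apply, Pi.smul_apply, smul_eq_mul, phi_zero_apply]

theorem opY_phi (a : ℕ) :
    opY q x (phi q x a) = phi q x (a + 1) - esym x (a + 1) • phi q x 0 := by
  funext c
  change yop q x (phi q x a) c = _
  rw [yop_phi]
  simp only [Pi.sub_apply, Pi.smul_apply, smul_eq_mul, phi_zero_apply]

theorem opD1_phi (a : ℕ) : opD1 (phi q x a) = qint q (a + 1) * esym x (a + 1) :=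
  D1_phi q x a

theorem opD_mAt_zero : opD (mAt q x 0) = (1 + q) • phi q x 1 := by
  rw [mAt_zero, map_smul, opD_F2, qint_one, one_smul]

theorem opD_gAt_zero : opD (gAt q x 0) = phi q x 1 := by
  rw [gAt_zero, opD_F2, qint_one, one_smul]

theorem opD_gAt_succ_raw (a : ℕ) :
    opD (gAt q x (a + 1)) =
      opY q x (opD (mAt q x a) - opD (opA q x (phi q x a))) +
        opD (opA q x (phi q x (a + 1))) := by
  have h1 := congrArg opD (opZ_Aphi q x a)
  rw [opD_opZ q x _ (opA_diag q x _), map_sub opD, map_sub opD] at h1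
  exact eq_add_of_sub_eq h1.symm

theorem opD_mAt (a : ℕ) :
    opD (mAt q x (a + 1)) = (1 + q) • phi q x (a + 2) + (q * esym x 1) • phi q x (a + 1) +
      (q ^ 2 * qint q a * esym x (a + 2)) • phi q x 0 := by
  induction a with
  | zero =>
    rw [mAt_eq, map_add opD, map_smul, opD_F2, opD_gAt_succ_raw, opD_mAt_zero, opD_Aphi,
      opD_Aphi]
    simp only [map_sub, map_add, map_smul, opY_phi]
    simp only [qint_succ', qint_zero]
    module
  | succ a ih =>
    rw [mAt_eq, map_add opD, map_smul, opD_F2, opD_gAt_succ_raw, ih, opD_Aphi, opD_Aphi]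
    simp only [map_sub, map_add, map_smul, opY_phi]
    simp only [qint_succ', qint_zero]
    module

/-- The part of `D G_{t+1}` not explained by `y D M_t`. -/
theorem opD_gAt (t : ℕ) :
    opD (gAt q x (t + 1)) = opY q x (opD (mAt q x t)) +
      (qint q (t + 2) * esym x (t + 2) + q * qint q t * esym x 1 * esym x (t + 1)) • phi q x 0 -
      (q * qint q t * esym x (t + 1)) • phi q x 1 := by
  rw [opD_gAt_succ_raw, map_sub (opY q x), opD_Aphi, opD_Aphi]
  simp only [map_add, map_smul, opY_phi]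
  simp only [qint_succ']
  module

end Vale.Agent.P066.Colour
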