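import Vale.Agent.P066.Colour.Bridge

/-!
The chromatic quasisymmetric function in finitely many variables, and its value as a word in
the transfer operators.
-/

namespace Vale.Agent.P066.Colour

open Finset

variable {R : Type*} [CommRing R] {N n : ℕ}

/-- The edge `{a, b}`, `a < b`, of the natural unit interval graph of `h`. -/
def Adj (h : Fin n → Fin n) (a b : Fin n) : Prop := a < b ∧ b ≤ h a

instance (h : Fin n → Fin n) (a b : Fin n) : Decidable (Adj h a b) :=
  inferInstanceAs (Decidable (_ ∧ _))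

/-- Number of ascents of a colouring. -/
def asc (h : Fin n → Fin n) (f : Fin n → Fin N) : ℕ :=
  (univ.filter fun p : Fin n × Fin n => Adj h p.1 p.2 ∧ f p.1 < f p.2).card

/-- A colouring is proper. -/
def Proper (h : Fin n → Fin n) (f : Fin n → Fin N) : Prop :=
  ∀ a b, Adj h a b → f a ≠ f b

instance (h : Fin n → Fin n) (f : Fin n → Fin N) : Decidable (Proper h f) :=
  inferInstanceAs (Decidable (∀ a b, Adj h a b → f a ≠ f b))

/-- The chromatic quasisymmetric function in the variables `x 0, …, x (N-1)`. -/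
def chi (q : R) (x : Fin N → R) (h : Fin n → Fin n) : R :=
  ∑ f : Fin n → Fin N, if Proper h f then q ^ asc h f * ∏ a, x (f a) else 0

/-- The number of smaller neighbours of `v`. -/
def smaller (h : Fin n → Fin n) (v : ℕ) : ℕ :=
  ((range v).filter fun u => ∃ hu : u < n, v ≤ (h ⟨u, hu⟩ : ℕ)).card

theorem smaller_le (h : Fin n → Fin n) (v : ℕ) : smaller h v ≤ v :=
  (card_filter_le _ _).trans (card_range v).le

theorem smaller_step (h : Fin n → Fin n) (v : ℕ) : smaller h (v + 1) ≤ smaller h v + 1 := by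
  classical
  refine le_trans (card_le_card ?_) (card_insert_le v _)
  intro u hu
  simp only [mem_filter, mem_range] at hu
  obtain ⟨hlt, hu', hle⟩ := hu
  rcases Nat.lt_or_ge u v with hv | hv
  · exact mem_insert_of_mem (mem_filter.2 ⟨mem_range.2 hv, hu', by omega⟩)
  · exact mem_insert.2 (Or.inl (by omega))

theorem smaller_eq_zero (h : Fin n → Fin n) (v : ℕ) (hv : n ≤ v) : smaller h v = 0 := by
  unfold smaller
  rw [card_eq_zero, filter_eq_empty_iff]
  rintro u _ ⟨hu, hle⟩
  have := (h ⟨u, hu⟩).isLt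
  omega

/-- The smaller neighbours of `v` are the `smaller h v` vertices just before it. -/
theorem adj_iff (h : Fin n → Fin n) (hmono : Monotone h) (u v : Fin n) :
    Adj h u v ↔ u < v ∧ (v : ℕ) - u ≤ smaller h v := by
  refine and_congr_right fun huv => ⟨fun hle => ?_, fun hle => ?_⟩
  · calc (v : ℕ) - u = (Ico (u : ℕ) v).card := (Nat.card_Ico _ _).symm
      _ ≤ smaller h v := card_le_card fun w hw => by
        obtain ⟨h1, h2⟩ := mem_Ico.1 hw
        refine mem_filter.2 ⟨mem_range.2 h2, by omega, ?_⟩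
        have hm : h u ≤ h ⟨w, by omega⟩ := hmono (Fin.le_def.2 h1)
        exact le_trans (Fin.le_def.1 hle) (Fin.le_def.1 hm)
  · by_contra hcon
    have huv' : (u : ℕ) < v := huv
    have : smaller h v ≤ (Ico ((u : ℕ) + 1) v).card := card_le_card fun w hw => by
      simp only [mem_filter, mem_range] at hw
      obtain ⟨hlt, hw', hle'⟩ := hw
      refine mem_Ico.2 ⟨?_, hlt⟩
      by_contra hwu
      have hm : h ⟨w, hw'⟩ ≤ h u := hmono (Fin.le_def.2 (by simp only; omega))
      exact hcon (Fin.le_def.2 (le_trans hle' (Fin.le_def.1 hm)))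
    rw [Nat.card_Ico] at this
    omega

theorem W_eq_prod (q : R) (x : Fin N → R) (e : ℕ → ℕ) : ∀ (m : ℕ) (g : Fin m → Fin N),
    W q x e m g = (∏ j, x (g j)) *
      ∏ j : Fin m, ∏ i : Fin m,
        if (j : ℕ) < i ∧ (i : ℕ) - j ≤ e (m - 1 - j) then wt q (g j) (g i) else 1 := by
  intro m
  induction m with
  | zero => intro g; simp [W]
  | succ m ih =>
      intro g
      rw [W, ih]
      simp only [Fin.prod_univ_succ, Fin.val_succ, Fin.val_zero, false_and,
        if_false, one_mul, Nat.not_lt_zero, Nat.zero_lt_succ, true_and, Nat.succ_lt_succ_iff,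
        Nat.add_sub_add_right, Nat.sub_zero, Nat.add_sub_cancel]
      have hj : ∀ j : Fin m, m - ((j : ℕ) + 1) = m - 1 - (j : ℕ) := fun j => by omega
      simp only [hj, Nat.succ_le_iff]
      ring

theorem chi_eq_sum (q : R) (x : Fin N → R) (h : Fin n → Fin n) (hmono : Monotone h) :
    chi q x h = ∑ g, W q x (smaller h) n g := by
  unfold chi
  refine Fintype.sum_equiv (Equiv.arrowCongr Fin.revPerm (Equiv.refl (Fin N))) _ _ fun f => ?_
  rw [W_eq_prod]
  simp only [Equiv.arrowCongr_apply, Equiv.coe_refl, Function.comp_apply, id_eq,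
    Fin.revPerm_symm, Fin.revPerm_apply]
  have hcond : ∀ a b : Fin n,
      (((b.rev : Fin n) : ℕ) < a.rev ∧
        ((a.rev : Fin n) : ℕ) - b.rev ≤ smaller h (n - 1 - b.rev)) ↔ Adj h a b := fun a b => by
    rw [adj_iff h hmono, Fin.lt_def, Fin.val_rev, Fin.val_rev]
    have hb := b.isLt
    have ha := a.isLt
    rw [show n - 1 - (n - ((b : ℕ) + 1)) = b by omega]
    constructor <;> rintro ⟨h1, h2⟩ <;> exact ⟨by omega, by omega⟩
  have e1 : ∏ j, x (f (Fin.rev j)) = ∏ a, x (f a) :=
    Equiv.prod_comp Fin.revPerm (fun a => x (f a))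
  have e2 : (∏ j : Fin n, ∏ i : Fin n,
      if (j : ℕ) < i ∧ (i : ℕ) - j ≤ smaller h (n - 1 - j) then
        wt q (f (Fin.rev j)) (f (Fin.rev i)) else 1) =
      ∏ b : Fin n, ∏ a : Fin n, if Adj h a b then wt q (f b) (f a) else 1 := by
    rw [← Equiv.prod_comp Fin.revPerm]
    refine prod_congr rfl fun b _ => ?_
    rw [← Equiv.prod_comp Fin.revPerm]
    simp only [Fin.revPerm_apply, Fin.rev_rev, hcond]
  rw [e1, e2]
  by_cases hp : Proper h f
  · rw [if_pos hp, mul_comm, asc, Finset.card_filter, ← Finset.prod_pow_eq_pow_sum,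
      Fintype.prod_prod_type_right]
    congr 1
    refine prod_congr rfl fun b _ => prod_congr rfl fun a _ => ?_
    by_cases hab : Adj h a b
    · have hne := hp a b hab
      rcases lt_or_gt_of_ne hne with hlt | hlt
      · simp [hab, wt, hlt, hne.symm]
      · simp [hab, wt, hne.symm, not_lt.2 hlt.le]
    · simp [hab]
  · rw [if_neg hp]
    simp only [Proper, not_forall, not_not] at hp
    obtain ⟨a, b, hab, heq⟩ := hp
    symm
    refine mul_eq_zero_of_right _ (prod_eq_zero (mem_univ b) (prod_eq_zero (mem_univ a) ?_))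
    simp [hab, wt, heq]

/-- The chromatic quasisymmetric function is the value of the word of transfer operators. -/
theorem chi_eq_st (q : R) (x : Fin N → R) (h : Fin n → Fin n) (hmono : Monotone h)
    (hsmall : ∀ v : Fin n, smaller h v ≤ 2) :
    chi q x h = (st q x (smaller h) n).1 := by
  rw [chi_eq_sum q x h hmono, st_fst q x (smaller h) ?_ (smaller_le h) (smaller_step h)]
  intro v
  rcases Nat.lt_or_ge v n with hv | hv
  · exact hsmall ⟨v, hv⟩
  · simp [smaller_eq_zero h v hv]

end Vale.Agent.P066.Colour
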