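import Vale.Agent.P066.Colour.Cone
import Vale.Agent.P066.Colour.Chi

/-!
From the positive cone to coefficients in the basis of elementary monomials.
-/

namespace Vale.Agent.P066.Colour

open Finset

/-- The ring in which the chromatic quasisymmetric function in `N` variables lives. -/
abbrev UR (N : ℕ) := MvPolynomial (Fin N) (Polynomial ℤ)

/-- The variable `q`. -/
noncomputable def qv (N : ℕ) : UR N := MvPolynomial.C Polynomial.X

/-- Substitution of `e_(i+1)` for the `i`-th variable. -/
noncomputable def eSubst (N : ℕ) : UR N →ₐ[Polynomial ℤ] UR N :=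
  MvPolynomial.aeval fun i : Fin N => MvPolynomial.esymm (Fin N) (Polynomial ℤ) ((i : ℕ) + 1)

theorem eSubst_injective (N : ℕ) : Function.Injective (eSubst N) := by
  intro a b hab
  apply MvPolynomial.esymmAlgHom_fin_injective (Polynomial ℤ) (le_refl N)
  apply Subtype.ext
  rw [MvPolynomial.esymmAlgHom_apply, MvPolynomial.esymmAlgHom_apply]
  exact hab

/-- Polynomials with coefficients in `ℕ[q]`, seen over `ℤ[q]`. -/
noncomputable def natToInt (N : ℕ) : MvPolynomial (Fin N) (Polynomial ℕ) →+* UR N :=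
  MvPolynomial.map (Polynomial.mapRingHom (Nat.castRingHom ℤ))

theorem natToInt_nonneg (N : ℕ) (P : MvPolynomial (Fin N) (Polynomial ℕ)) (d : Fin N →₀ ℕ)
    (k : ℕ) : 0 ≤ ((natToInt N P).coeff d).coeff k := by
  simp [natToInt, MvPolynomial.coeff_map]

theorem posS_le (N : ℕ) :
    posS (qv N) (MvPolynomial.X : Fin N → UR N) ≤
      ((eSubst N).toRingHom.comp (natToInt N)).rangeS := by
  refine Subsemiring.closure_le.2 ?_
  rintro v (rfl | ⟨a, rfl⟩)
  · exact ⟨MvPolynomial.C Polynomial.X, by simp [natToInt, eSubst, qv]⟩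
  · rcases a with - | a
    · exact ⟨1, by rw [map_one, esym_zero]⟩
    · rcases Nat.lt_or_ge a N with ha | ha
      · exact ⟨MvPolynomial.X ⟨a, ha⟩, by simp [natToInt, eSubst, esym, MvPolynomial.esymm]⟩
      · refine ⟨0, ?_⟩
        rw [map_zero, esym, powersetCard_eq_empty.2 (by simp; omega), sum_empty]

theorem smaller_le_two {n : ℕ} (h : Fin n → Fin n) (hband : ∀ i, (h i : ℕ) ≤ i + 2) (v : ℕ) :
    smaller h v ≤ 2 := by
  calc smaller h v ≤ (Ico (v - 2) v).card := card_le_card fun u hu => by
        simp only [mem_filter, mem_range] at hu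
        obtain ⟨hlt, hu', hle⟩ := hu
        have := hband ⟨u, hu'⟩
        simp only at this
        exact mem_Ico.2 ⟨by omega, hlt⟩
    _ ≤ 2 := by rw [Nat.card_Ico]; omega

/-- In `N` variables the chromatic quasisymmetric function is a positive polynomial in
`e_1, …, e_N`. -/
theorem exists_nonneg {n : ℕ} (h : Fin n → Fin n) (hmono : Monotone h)
    (hband : ∀ i, (h i : ℕ) ≤ i + 2) (N : ℕ) :
    ∃ P : UR N, eSubst N P = chi (qv N) MvPolynomial.X h ∧
      ∀ d k, 0 ≤ (P.coeff d).coeff k := by
  have hmem : chi (qv N) (MvPolynomial.X : Fin N → UR N) h ∈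
      posS (qv N) (MvPolynomial.X : Fin N → UR N) := by
    rw [chi_eq_st (qv N) MvPolynomial.X h hmono fun v => smaller_le_two h hband v]
    exact (st_mem (qv N) MvPolynomial.X (smaller h) n).1
  obtain ⟨P, hP⟩ := posS_le N hmem
  exact ⟨natToInt N P, hP, natToInt_nonneg N P⟩

end Vale.Agent.P066.Colour
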