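import Vale.Agent.P066.Colour.Blocks
import Vale.Agent.P066.Colour.Positive

/-!
Natural unit interval graphs in which every edge longer than two lies in a complete block.
-/

namespace Vale.Agent.P066.Colour

open Finset

variable {n : ℕ}

theorem smaller_ge (h : Fin n → Fin n) (u w : ℕ) (hw : w < n) (_huw : u ≤ w)
    (hall : ∀ j (hj : j < n), u ≤ j → j < w → w ≤ (h ⟨j, hj⟩ : ℕ)) :
    w - u ≤ smaller h w := by
  rw [← Nat.card_Ico u w]
  refine card_le_card fun j hj => ?_
  obtain ⟨h1, h2⟩ := mem_Ico.1 hj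
  exact mem_filter.2 ⟨mem_range.2 h2, by omega, hall j (by omega) h1 h2⟩

theorem smaller_le_of (h : Fin n → Fin n) (w a : ℕ)
    (hall : ∀ j (hj : j < n), j < w → w ≤ (h ⟨j, hj⟩ : ℕ) → w ≤ a + j) :
    smaller h w ≤ a := by
  refine le_trans (card_le_card (t := Ico (w - a) w) fun j hj => ?_)
    (by rw [Nat.card_Ico]; omega)
  obtain ⟨hjw, hjn, hle⟩ := mem_filter.1 hj
  rw [mem_range] at hjw
  have := hall j hjn hjw hle
  exact mem_Ico.2 ⟨by omega, hjw⟩

theorem far_adj (h : Fin n → Fin n) (hmono : Monotone h) (v : ℕ) (hv : v < n) (u : ℕ)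
    (hu : u < v) (hd : v - u ≤ smaller h v) : v ≤ (h ⟨u, by omega⟩ : ℕ) :=
  Fin.le_def.1 ((adj_iff h hmono ⟨u, by omega⟩ ⟨v, hv⟩).2 ⟨Fin.lt_def.2 hu, hd⟩).2

theorem blockSeq_smaller (h : Fin n → Fin n) (hmono : Monotone h)
    (hblock : ∀ i : Fin n, (i : ℕ) + 2 < h i →
      (∀ j, i < j → j < h i → h j = h i) ∧ (∀ j, j < i → h j ≤ i ∨ h j = h i)) :
    BlockSeq (smaller h) := by
  refine ⟨smaller_le h, smaller_step h, fun v hv3 => ?_, fun v hv => ?_⟩
  · have hvn : v < n := by
      by_contra hc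
      rw [smaller_eq_zero h v (by omega)] at hv3
      omega
    obtain ⟨u, hu⟩ : ∃ u, v = u + smaller h v :=
      ⟨v - smaller h v, by have := smaller_le h v; omega⟩
    have hun : u < n := by omega
    have hfar := far_adj h hmono v hvn u (by omega) (by omega)
    obtain ⟨hin, hout⟩ := hblock ⟨u, hun⟩ (show u + 2 < (h ⟨u, hun⟩ : ℕ) by omega)
    rcases Nat.lt_or_ge v (h ⟨u, hun⟩ : ℕ) with hlt | hge
    · right
      have hb : v + 1 - u ≤ smaller h (v + 1) := by
        refine smaller_ge h u (v + 1) (by have := (h ⟨u, hun⟩).isLt; omega) (by omega)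
          fun j hj huj hjv => ?_
        rcases Nat.eq_or_lt_of_le huj with rfl | huj'
        · omega
        · rw [hin ⟨j, hj⟩ (Fin.lt_def.2 huj') (Fin.lt_def.2 (show j < _ by omega))]
          omega
      have := smaller_step h v
      omega
    · left
      refine smaller_le_of h (v + 1) 1 fun j hj hjv hle => ?_
      by_contra hc
      rcases Nat.lt_trichotomy j u with hju | rfl | hju
      · rcases hout ⟨j, hj⟩ (Fin.lt_def.2 hju) with h' | h'
        · rw [Fin.le_def] at h'; change (h ⟨j, hj⟩ : ℕ) ≤ u at h'; omega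
        · rw [h'] at hle; omega
      · omega
      · rw [hin ⟨j, hj⟩ (Fin.lt_def.2 hju) (Fin.lt_def.2 (show j < _ by omega))] at hle
        omega
  · have hvn : v + 2 < n := by
      by_contra hc
      rw [smaller_eq_zero h (v + 2) (by omega)] at hv
      omega
    have hv1 : 1 ≤ v := by have := smaller_le h (v + 2); omega
    have hun : v - 1 < n := by omega
    have hfar := far_adj h hmono (v + 2) hvn (v - 1) (by omega) (by omega)
    obtain ⟨-, hout⟩ := hblock ⟨v - 1, hun⟩ (show v - 1 + 2 < (h ⟨v - 1, hun⟩ : ℕ) by omega)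
    refine smaller_le_of h v 1 fun j hj hjv hle => ?_
    by_contra hc
    rcases hout ⟨j, hj⟩ (Fin.lt_def.2 (show j < v - 1 by omega)) with h' | h'
    · rw [Fin.le_def] at h'; change (h ⟨j, hj⟩ : ℕ) ≤ v - 1 at h'; omega
    · have hju : j < v + 2 := by omega
      have : 4 ≤ smaller h (v + 2) := by
        refine le_trans (by omega) (smaller_ge h j (v + 2) hvn (by omega) fun l hl h1 _ => ?_)
        calc v + 2 ≤ (h ⟨j, hj⟩ : ℕ) := by rw [h']; omega
          _ ≤ _ := Fin.le_def.1 (hmono (Fin.le_def.2 h1))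
      omega

/-- In `N` variables the chromatic quasisymmetric function of a graph in the class is a positive
polynomial in the elementary symmetric functions. -/
theorem exists_nonneg_blocks (h : Fin n → Fin n) (hmono : Monotone h)
    (hblock : ∀ i : Fin n, (i : ℕ) + 2 < h i →
      (∀ j, i < j → j < h i → h j = h i) ∧ (∀ j, j < i → h j ≤ i ∨ h j = h i)) (N : ℕ) :
    ∃ P : UR N, eSubst N P = chi (qv N) MvPolynomial.X h ∧
      ∀ d k, 0 ≤ (P.coeff d).coeff k := by
  have hq : qv N ≠ 1 := by
    intro hc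
    have hX : (Polynomial.X : Polynomial ℤ) = 1 :=
      MvPolynomial.C_injective (Fin N) (Polynomial ℤ) (by rw [map_one]; exact hc)
    simpa [Polynomial.coeff_one] using congrArg (fun p => Polynomial.coeff p 1) hX
  have hmem : chi (qv N) (MvPolynomial.X : Fin N → UR N) h ∈
      posS (qv N) (MvPolynomial.X : Fin N → UR N) := by
    rw [chi_eq_sum (qv N) MvPolynomial.X h hmono]
    exact (total_mem (qv N) MvPolynomial.X (smaller h) hq (blockSeq_smaller h hmono hblock) n).1
  obtain ⟨P, hP⟩ := posS_le N hmem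
  exact ⟨natToInt N P, hP, natToInt_nonneg N P⟩

end Vale.Agent.P066.Colour
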