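import Vale.Agent.P066.Colour.Defs

/-!
Bridge from colourings to the transfer operators.
-/

namespace Vale.Agent.P066.Colour

open Finset

variable {R : Type*} [CommRing R] {N : ℕ} (q : R) (x : Fin N → R) (e : ℕ → ℕ)

theorem W_succ (n : ℕ) (c : Fin N) (g : Fin n → Fin N) :
    W q x e (n + 1) (Fin.cons c g) =
      x c * (∏ i : Fin n, if (i : ℕ) < e n then wt q c (g i) else 1) * W q x e n g := by
  simp only [W, Fin.cons_zero, Fin.cons_succ]

theorem sum_cons {M : Type*} [AddCommMonoid M] (n : ℕ) (F : (Fin (n + 1) → Fin N) → M) :
    ∑ g, F g = ∑ c, ∑ g, F (Fin.cons c g) := by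
  rw [← Fintype.sum_prod_type']
  exact (Fintype.sum_equiv (Fin.consEquiv fun _ => Fin N) _ _ fun p => rfl).symm

theorem prod_lt_zero {M : Type*} [CommMonoid M] (n : ℕ) (f : Fin n → M) :
    (∏ i : Fin n, if (i : ℕ) < 0 then f i else 1) = 1 :=
  Finset.prod_eq_one fun i _ => by simp

theorem prod_lt_one {M : Type*} [CommMonoid M] (n : ℕ) (f : Fin (n + 1) → M) :
    (∏ i : Fin (n + 1), if (i : ℕ) < 1 then f i else 1) = f 0 := by
  rw [Fin.prod_univ_succ]
  simp

theorem prod_lt_two {M : Type*} [CommMonoid M] (n : ℕ) (f : Fin (n + 2) → M) :
    (∏ i : Fin (n + 2), if (i : ℕ) < 2 then f i else 1) = f 0 * f 1 := by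
  rw [Fin.prod_univ_succ, Fin.prod_univ_succ]
  simp

theorem st_succ (n : ℕ) : st q x e (n + 1) = step q x (e n) (st q x e n) := rfl

/-- The marginal on the colour of the newest vertex. -/
def marg1 (n : ℕ) (c : Fin N) : R := ∑ g : Fin n → Fin N, W q x e (n + 1) (Fin.cons c g)

/-- The marginal on the colours of the newest two vertices. -/
def marg2 (n : ℕ) (c d : Fin N) : R :=
  ∑ g : Fin n → Fin N, W q x e (n + 2) (Fin.cons c (Fin.cons d g))

/-- What the state knows after `n` vertices. -/
def Knows (n : ℕ) : Prop :=
  (st q x e n).1 = ∑ g, W q x e n g ∧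
  (∀ m, n = m + 1 → (st q x e n).2.1 = marg1 q x e m) ∧
  (∀ m, n = m + 2 → e (m + 1) ≠ 0 → (st q x e n).2.2 = marg2 q x e m)

theorem knows (hle : ∀ v, e v ≤ 2) (hv : ∀ v, e v ≤ v) (hstep : ∀ v, e (v + 1) ≤ e v + 1) :
    ∀ n, Knows q x e n := by
  intro n
  induction n with
  | zero =>
      refine ⟨?_, fun m h => by omega, fun m h => by omega⟩
      simp [st, W]
  | succ n ih =>
      obtain ⟨h0, h1, h2⟩ := ih
      have key : (st q x e (n + 1)).2.1 = marg1 q x e n ∧
          (∀ m, n + 1 = m + 2 → e (m + 1) ≠ 0 →
            (st q x e (n + 1)).2.2 = marg2 q x e m) := by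
        by_cases he0 : e n = 0
        · constructor
          · funext c
            simp only [st_succ, step, he0, if_true, A0, marg1, W_succ, prod_lt_zero, mul_one]
            rw [h0, Finset.mul_sum]
          · intro m hm hne
            obtain rfl : n = m + 1 := by omega
            exact absurd he0 hne
        · obtain ⟨m, rfl⟩ : ∃ m, n = m + 1 := ⟨n - 1, by have := hv n; omega⟩
          have hG : (if e (m + 1) = 1 then A1 q x (st q x e (m + 1)).2.1
              else P2 q x (st q x e (m + 1)).2.2) = marg2 q x e m := by
            by_cases he1 : e (m + 1) = 1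
            · rw [if_pos he1, h1 m rfl]
              funext c d
              simp only [A1, marg1, marg2, W_succ, he1, prod_lt_one, Fin.cons_zero,
                Finset.mul_sum]
            · rw [if_neg he1]
              have he2 : e (m + 1) = 2 := by have := hle (m + 1); omega
              have hm1 := hv (m + 1)
              obtain ⟨m', rfl⟩ : ∃ m', m = m' + 1 := ⟨m - 1, by omega⟩
              have hne : e (m' + 1) ≠ 0 := by
                have := hstep (m' + 1); omega
              rw [h2 m' rfl hne]
              funext c d
              simp only [P2, marg2, he2, W_succ q x e (m' + 2), prod_lt_two,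
                Fin.cons_zero, Fin.cons_one]
              rw [sum_cons m']
              simp only [Finset.mul_sum, Fin.cons_zero]
              refine Finset.sum_congr rfl fun g _ => Finset.sum_congr rfl fun r _ => ?_
              ring
          constructor
          · funext c
            simp only [st_succ q x e (m + 1), step, he0, if_false]
            rw [hG]
            simp only [D2, marg1, marg2]
            rw [sum_cons m]
          · intro m₂ hm₂ _
            obtain rfl : m₂ = m := by omega
            simp only [st_succ q x e (m₂ + 1), step, he0, if_false]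
            exact hG
      refine ⟨?_, fun m h => ?_, key.2⟩
      · have hfst : (st q x e (n + 1)).1 = D1 (st q x e (n + 1)).2.1 := by
          simp only [st_succ, step]; split_ifs <;> rfl
        rw [hfst, key.1, sum_cons n]
        rfl
      · obtain rfl : m = n := by omega
        exact key.1

/-- The total weight of all colourings is computed by the transfer operators. -/
theorem st_fst (hle : ∀ v, e v ≤ 2) (hv : ∀ v, e v ≤ v) (hstep : ∀ v, e (v + 1) ≤ e v + 1)
    (n : ℕ) : (st q x e n).1 = ∑ g, W q x e n g :=
  (knows q x e hle hv hstep n).1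

end Vale.Agent.P066.Colour
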