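import Vale.Agent.P066.Colour.CliquePos
import Vale.Agent.P066.Colour.Bridge

/-!
States of graphs whose blocks have bandwidth at most two or are complete.
-/

namespace Vale.Agent.P066.Colour

open Finset

variable {R : Type*} [CommRing R] {N : ℕ}

/-- The sum over the colours of `k` vertices forming a clique with vertex weights `w`. -/
def inner (q : R) : ℕ → (Fin N → R) → R
  | 0, _ => 1
  | k + 1, w => ∑ a, w a * inner q k (fun i => wt q a i * w i)

/-- The product of the first `k` q-integers. -/
def qfact (q : R) (k : ℕ) : R := ∏ i ∈ range k, qint q (i + 1)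

theorem inner_eq (q : R) : ∀ (k : ℕ) (w : Fin N → R), inner q k w = qfact q k * esym w k := by
  intro k
  induction k with
  | zero => intro w; simp [inner, qfact, esym]
  | succ k ih =>
    intro w
    have h : ∑ a, w a * esym (fun i => wt q a i * w i) k = qint q (k + 1) * esym w (k + 1) :=
      D1_phi q w k
    rw [inner, qfact, prod_range_succ]
    simp only [ih]
    calc ∑ a, w a * (qfact q k * esym (fun i => wt q a i * w i) k)
        = qfact q k * ∑ a, w a * esym (fun i => wt q a i * w i) k := by
          rw [mul_sum]; exact sum_congr rfl fun a _ => by ring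
      _ = _ := by rw [h, qfact]; ring

variable (q : R) (x : Fin N → R)

/-- The transfer through a clique with `k` inner vertices between two cut vertices. -/
def opClique (k : ℕ) : V1 R N →ₗ[R] V1 R N where
  toFun u := fun c => qfact q k *
    (x c * ∑ d, wt q c d * esym (fun i => wt q c i * wt q i d * x i) k * u d)
  map_add' u v := by
    funext c; simp only [Pi.add_apply, mul_add, sum_add_distrib]
  map_smul' a u := by
    funext c
    simp only [Pi.smul_apply, smul_eq_mul, RingHom.id_apply, mul_sum]
    exact sum_congr rfl fun d _ => by ring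

theorem qfact_mem (k : ℕ) : qfact q k ∈ posS q x := prod_mem fun _ _ => qint_mem q x _

theorem opClique_mem [IsDomain R] (hq : q ≠ 1) (k : ℕ) {v : V1 R N} (hv : v ∈ C1 q x) :
    opClique q x k v ∈ C1 q x := by
  refine map_cone q x (opClique q x k) ?_ hv
  rintro g ⟨m, rfl⟩
  have e : opClique q x k (phi q x m) = qfact q k •
      ((∑ r ∈ range (min k m + 1),
          (q ^ r * qint q (k + 1 - r) * esym x r) • phi q x (k + m + 1 - r)) +
        ∑ r ∈ range (min (k + 1) m),
          (q ^ (k + 1) * qint q (m - r) * esym x (k + m + 1 - r)) • phi q x r) := by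
    funext c
    have h1 : ∑ d, wt q c d * esym (fun i => wt q c i * wt q i d * x i) k * phi q x m d =
        cliqueCoef q x c k m := by
      unfold cliqueCoef phi
      exact sum_congr rfl fun d _ => by ring
    change qfact q k * (x c * _) = _
    rw [h1, cliqueCoef_eq q x c hq, cliqueP]
    simp only [Pi.smul_apply, Pi.add_apply, Finset.sum_apply, smul_eq_mul, phi, eAt, mul_add,
      mul_sum]
    congr 1 <;> exact sum_congr rfl fun r _ => by ring
  rw [e]
  refine smul_mem_cone q x (qfact_mem q x k) (add_mem ?_ ?_) <;>
    refine sum_mem fun r _ => phi_mem q x ?_ _ <;>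
    exact mul_mem (mul_mem (qpow_mem q x _) (qint_mem q x _)) (e_mem q x _)

variable (e : ℕ → ℕ)

/-- Summing out a clique attached at the vertex `m`. -/
theorem block_sum (m : ℕ) : ∀ (k : ℕ) (h : Fin N → R),
    (∀ v, m < v → v ≤ m + k → e v = v - m) →
    ∑ g : Fin (m + 1 + k) → Fin N, W q x e (m + 1 + k) g *
        ∏ i : Fin (m + 1 + k), (if (i : ℕ) < k + 1 then h (g i) else 1) =
      ∑ d, h d * inner q k (fun i => wt q i d * h i * x i) * marg1 q x e m d := by
  intro k
  induction k with
  | zero =>
    intro h _
    change ∑ g : Fin (m + 1) → Fin N, W q x e (m + 1) g *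
        ∏ i : Fin (m + 1), (if (i : ℕ) < 0 + 1 then h (g i) else 1) = _
    rw [sum_cons m]
    refine sum_congr rfl fun d _ => ?_
    simp only [inner, marg1, prod_lt_one, Fin.cons_zero, mul_one, mul_sum]
    exact sum_congr rfl fun g _ => mul_comm _ _
  | succ k ih =>
    intro h he
    change ∑ g : Fin (m + 1 + k + 1) → Fin N, W q x e (m + 1 + k + 1) g *
        ∏ i : Fin (m + 1 + k + 1), (if (i : ℕ) < k + 1 + 1 then h (g i) else 1) = _
    rw [sum_cons (m + 1 + k)]
    have hk : e (m + 1 + k) = k + 1 := by
      rw [he (m + 1 + k) (by omega) (by omega)]; omega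
    have hstep : ∀ a : Fin N, ∑ g : Fin (m + 1 + k) → Fin N,
        W q x e (m + 1 + k + 1) (Fin.cons a g) *
          ∏ i : Fin (m + 1 + k + 1),
            (if (i : ℕ) < k + 1 + 1 then h (Fin.cons (α := fun _ => Fin N) a g i) else 1) =
        x a * h a * ∑ d, (wt q a d * h d) *
          inner q k (fun i => wt q i d * (wt q a i * h i) * x i) * marg1 q x e m d := by
      intro a
      rw [← ih (fun i => wt q a i * h i) (fun v h1 h2 => he v h1 (by omega)), mul_sum]
      refine sum_congr rfl fun g _ => ?_
      rw [W_succ, Fin.prod_univ_succ, hk]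
      simp only [Fin.val_zero, Fin.cons_zero, Fin.cons_succ, Fin.val_succ, Nat.zero_lt_succ,
        if_true, Nat.add_lt_add_iff_right]
      have hp : (∏ i : Fin (m + 1 + k), if (i : ℕ) < k + 1 then wt q a (g i) else 1) *
          ∏ i : Fin (m + 1 + k), (if (i : ℕ) < k + 1 then h (g i) else 1) =
          ∏ i : Fin (m + 1 + k), (if (i : ℕ) < k + 1 then wt q a (g i) * h (g i) else 1) := by
        rw [← prod_mul_distrib]
        exact prod_congr rfl fun i _ => by split_ifs <;> ring
      rw [← hp]
      ring
    rw [sum_congr rfl fun a _ => hstep a]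
    simp only [mul_sum]
    rw [sum_comm]
    refine sum_congr rfl fun d _ => ?_
    rw [inner, mul_sum, sum_mul]
    refine sum_congr rfl fun a _ => ?_
    have : (fun i => wt q i d * (wt q a i * h i) * x i) =
        fun i => wt q a i * (wt q i d * h i * x i) := by funext i; ring
    rw [this]
    ring

theorem marg1_block (m k : ℕ) (he : ∀ v, m < v → v ≤ m + 1 + k → e v = v - m) :
    marg1 q x e (m + 1 + k) = opClique q x k (marg1 q x e m) := by
  funext c
  have h := block_sum q x e m k (fun i => wt q c i) fun v h1 h2 => he v h1 (by omega)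
  have hk : e (m + 1 + k) = k + 1 := by rw [he _ (by omega) le_rfl]; omega
  change ∑ g, W q x e (m + 1 + k + 1) (Fin.cons c g) = qfact q k * (x c * _)
  calc ∑ g, W q x e (m + 1 + k + 1) (Fin.cons c g)
      = x c * ∑ g : Fin (m + 1 + k) → Fin N, W q x e (m + 1 + k) g *
          ∏ i : Fin (m + 1 + k), (if (i : ℕ) < k + 1 then wt q c (g i) else 1) := by
        rw [mul_sum]
        refine sum_congr rfl fun g _ => ?_
        rw [W_succ, hk]
        ring
    _ = _ := by
        rw [h]
        simp only [mul_sum]
        refine sum_congr rfl fun d _ => ?_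
        have : (fun i => wt q i d * wt q c i * x i) =
            fun i => wt q c i * wt q i d * x i := by funext i; ring
        rw [inner_eq, this]
        ring

theorem marg1_eq_D2 (m : ℕ) : marg1 q x e (m + 1) = opD (marg2 q x e m) := by
  funext c
  change ∑ g, W q x e (m + 2) (Fin.cons c g) = ∑ d, marg2 q x e m c d
  rw [sum_cons m]
  rfl

theorem marg2_one (m : ℕ) (he : e (m + 1) = 1) :
    marg2 q x e m = opA q x (marg1 q x e m) := by
  funext c d
  change _ = x c * wt q c d * marg1 q x e m d
  simp only [marg1, marg2, W_succ, he, prod_lt_one, Fin.cons_zero, mul_sum]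

theorem marg2_two (m : ℕ) (he : e (m + 2) = 2) :
    marg2 q x e (m + 1) = opP q x (marg2 q x e m) := by
  rw [← P2_eq]
  funext c d
  simp only [P2, marg2, W_succ q x e (m + 2), he, prod_lt_two, Fin.cons_zero, Fin.cons_one]
  rw [sum_cons m]
  simp only [mul_sum, Fin.cons_zero]
  refine sum_congr rfl fun g _ => sum_congr rfl fun r _ => ?_
  ring

/-- The shape of the numbers of smaller neighbours in the class. -/
structure BlockSeq (e : ℕ → ℕ) : Prop where
  le : ∀ v, e v ≤ v
  step : ∀ v, e (v + 1) ≤ e v + 1
  leave : ∀ v, 3 ≤ e v → e (v + 1) ≤ 1 ∨ e (v + 1) = e v + 1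
  enter : ∀ v, e (v + 2) = 3 → e v ≤ 1

theorem BlockSeq.run {e : ℕ → ℕ} (he : BlockSeq e) : ∀ L, 3 ≤ L → ∀ s, e (s + L) = L →
    ∀ v, s < v → v ≤ s + L → e v = v - s := by
  intro L hL
  induction L, hL using Nat.le_induction with
  | base =>
    intro s hs v h1 h2
    have b1 := he.step (s + 2)
    have b2 := he.step (s + 1)
    have b3 := he.leave (s + 2)
    have b4 := he.enter (s + 1) hs
    rw [show s + 2 + 1 = s + 3 from rfl, hs] at b1 b3
    rw [show s + 1 + 1 = s + 2 from rfl] at b2
    rcases (by omega : v = s + 1 ∨ v = s + 2 ∨ v = s + 3) with rfl | rfl | rfl <;> omega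
  | succ L hL ih =>
    intro s hs v h1 h2
    have b1 := he.step (s + L)
    have b3 := he.leave (s + L)
    rw [show s + L + 1 = s + (L + 1) by omega, hs] at b1 b3
    have hw : e (s + L) = L := by
      rcases b3 (by omega) with h | h <;> omega
    rcases Nat.lt_or_ge (s + L) v with h | h
    · rw [show v = s + (L + 1) by omega, hs]; omega
    · exact ih s hw v h1 h

/-- All states of a sequence in the class stay positive. -/
theorem total_mem [IsDomain R] (hq : q ≠ 1) (he : BlockSeq e) : ∀ n,
    (∑ g, W q x e n g) ∈ posS q x ∧ (∀ m, n = m + 1 → marg1 q x e m ∈ C1 q x) ∧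
      (∀ m, n = m + 2 → 1 ≤ e (m + 1) → e (m + 1) ≤ 2 → marg2 q x e m ∈ C2 q x) := by
  intro n
  induction n using Nat.strong_induction_on with
  | _ n ih =>
    rcases n with - | n
    · refine ⟨?_, fun m h => by omega, fun m h => by omega⟩
      simp [W, one_mem]
    have key : marg1 q x e n ∈ C1 q x ∧
        (∀ m, n + 1 = m + 2 → 1 ≤ e (m + 1) → e (m + 1) ≤ 2 → marg2 q x e m ∈ C2 q x) := by
      rcases (by omega : e n = 0 ∨ e n = 1 ∨ e n = 2 ∨ 3 ≤ e n) with h0 | h1 | h2 | h3
      · refine ⟨?_, fun m hm hge _ => ?_⟩
        · have : marg1 q x e n = (∑ g, W q x e n g) • phi q x 0 := by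
            funext c
            simp only [marg1, W_succ, h0, prod_lt_zero, mul_one, Pi.smul_apply, smul_eq_mul,
              phi_zero_apply]
            rw [← mul_sum, mul_comm]
          rw [this]
          exact phi_mem q x (ih n (by omega)).1 0
        · obtain rfl : n = m + 1 := by omega
          omega
      · obtain ⟨m, rfl⟩ : ∃ m, n = m + 1 := ⟨n - 1, by have := he.le n; omega⟩
        have hm := (ih (m + 1) (by omega)).2.1 m rfl
        have h2' : marg2 q x e m ∈ C2 q x := by
          rw [marg2_one q x e m h1]; exact opA_mem q x hm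
        refine ⟨?_, fun m' hm' _ _ => ?_⟩
        · rw [marg1_eq_D2]
          exact map_cone q x opD (fun g hg => opD_gen q x hg) h2'
        · obtain rfl : m' = m := by omega
          exact h2'
      · obtain ⟨m, rfl⟩ : ∃ m, n = m + 2 := ⟨n - 2, by have := he.le n; omega⟩
        have b1 := he.step (m + 1)
        have b2 := he.leave (m + 1)
        rw [show m + 1 + 1 = m + 2 from rfl, h2] at b1 b2
        have hm := (ih (m + 2) (by omega)).2.2 m rfl (by omega) (by omega)
        have h2' : marg2 q x e (m + 1) ∈ C2 q x := by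
          rw [marg2_two q x e m h2]
          exact map_cone q x (opP q x) (fun g hg => opP_gen q x hg) hm
        refine ⟨?_, fun m' hm' _ _ => ?_⟩
        · rw [marg1_eq_D2]
          exact map_cone q x opD (fun g hg => opD_gen q x hg) h2'
        · obtain rfl : m' = m + 1 := by omega
          exact h2'
      · obtain ⟨k, hk⟩ : ∃ k, e n = k + 1 := ⟨e n - 1, by omega⟩
        obtain ⟨m, rfl⟩ : ∃ m, n = m + 1 + k :=
          ⟨n - 1 - k, by have := he.le n; omega⟩
        have hrun := he.run (k + 1) (by omega) m
          (by rw [show m + (k + 1) = m + 1 + k by omega]; exact hk)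
        refine ⟨?_, fun m' hm' _ hle => ?_⟩
        · rw [marg1_block q x e m k fun v a b => hrun v a (by omega)]
          exact opClique_mem q x hq k ((ih (m + 1) (by omega)).2.1 m rfl)
        · rw [show m' + 1 = m + 1 + k by omega] at hle
          omega
    refine ⟨?_, fun m h => ?_, key.2⟩
    · have : ∑ g, W q x e (n + 1) g = opD1 (marg1 q x e n) := by
        rw [sum_cons n]; rfl
      rw [this]
      exact opD1_mem q x key.1
    · obtain rfl : m = n := by omega
      exact key.1

end Vale.Agent.P066.Colour
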