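import Vale.Agent.P066.Colour.Atoms

/-!
The kernel identity for a clique between two cut vertices, as an identity of two generating
products.
-/

namespace Vale.Agent.P066.Colour

open Finset

variable {R : Type*} [CommRing R] {N : ℕ}

/-- The kernel of a clique whose two ends have the colours `c` and `d`, contracted with a pointed
atom at `d`. -/
def cliquePair (q : R) (x : Fin N → R) (t s : R) (c : Fin N) : R :=
  ∑ d, wt q c d * x d * (∏ i, (1 + t * (wt q c i * wt q i d * x i))) *
    ∏ i, (1 + s * (wt q d i * x i))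

/-- Splitting a product at the point `c`. -/
theorem prod_split (c : Fin N) (f : Fin N → R) :
    ∏ i, f i = (∏ i ∈ Iio c, f i) * f c * ∏ i ∈ Ioi c, f i := by
  have hu : (univ : Finset (Fin N)) = (Iio c ∪ {c}) ∪ Ioi c := by
    ext i
    simp only [mem_univ, mem_union, mem_Iio, mem_singleton, mem_Ioi, true_iff]
    rcases lt_trichotomy i c with h | h | h
    · exact Or.inl (Or.inl h)
    · exact Or.inl (Or.inr h)
    · exact Or.inr h
  rw [hu, prod_union, prod_union, prod_singleton]
  · simp
  · rw [disjoint_left]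
    intro i hi hi'
    simp only [mem_union, mem_Iio, mem_singleton, mem_Ioi] at hi hi'
    rcases hi with h | h
    · exact lt_asymm h hi'
    · exact absurd (h ▸ hi') (lt_irrefl _)

/-- The telescoping sum over the position `d` inside an ordered set. -/
theorem sum_tele (T : Finset (Fin N)) (a b : Fin N → R) :
    ∑ d ∈ T, (b d - a d) * (∏ i ∈ T with i < d, b i) * (∏ i ∈ T with d < i, a i) =
      ∏ i ∈ T, b i - ∏ i ∈ T, a i := by
  have h := prod_add_ordered T a (fun i => b i - a i)
  simp only [add_sub_cancel] at h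
  rw [h]
  ring

theorem gen_split (q : R) (x : Fin N → R) (t : R) (c : Fin N) :
    ∏ i, (1 + t * (wt q c i * x i)) =
      (∏ i ∈ Iio c, (1 + q * t * x i)) * ∏ i ∈ Ioi c, (1 + t * x i) := by
  rw [prod_split c, wt_self, zero_mul, mul_zero, add_zero, mul_one]
  congr 1
  · refine prod_congr rfl fun i hi => ?_
    rw [wt_gt q (mem_Iio.1 hi)]; ring
  · refine prod_congr rfl fun i hi => ?_
    rw [wt_lt q (mem_Ioi.1 hi)]; ring

/-- The contribution of the colours `d` above `c`. -/
theorem pair_high (q : R) (x : Fin N → R) (t s : R) (c : Fin N) :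
    (q - 1) * (t - s) * (∑ d ∈ Ioi c, wt q c d * x d *
        (∏ i, (1 + t * (wt q c i * wt q i d * x i))) * ∏ i, (1 + s * (wt q d i * x i))) =
      (1 + q * s * x c) * (∏ i ∈ Iio c, (1 + q * t * x i) * (1 + q * s * x i)) *
        ((∏ i ∈ Ioi c, (1 + q * t * x i) * (1 + s * x i)) -
          ∏ i ∈ Ioi c, (1 + t * x i) * (1 + q * s * x i)) := by
  have htele := sum_tele (Ioi c) (fun i => (1 + q * t * x i) * (1 + s * x i))
    (fun i => (1 + t * x i) * (1 + q * s * x i))
  rw [← neg_sub (∏ i ∈ Ioi c, (1 + t * x i) * (1 + q * s * x i)), ← htele, mul_sum,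
    ← sum_neg_distrib, mul_sum]
  refine sum_congr rfl fun d hd => ?_
  have hcd : c < d := mem_Ioi.1 hd
  rw [mul_assoc (wt q c d * x d), ← prod_mul_distrib, wt_lt q hcd]
  have hlow : ∏ i ∈ Iio c, (1 + t * (wt q c i * wt q i d * x i)) * (1 + s * (wt q d i * x i)) =
      ∏ i ∈ Iio c, (1 + q * t * x i) * (1 + q * s * x i) := by
    refine prod_congr rfl fun i hi => ?_
    have hic : i < c := mem_Iio.1 hi
    rw [wt_gt q hic, wt_gt q (hic.trans hcd), wt_lt q (hic.trans hcd)]
    ring
  have hhigh : ∏ i ∈ Ioi c, (1 + t * (wt q c i * wt q i d * x i)) * (1 + s * (wt q d i * x i)) =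
      (∏ i ∈ Ioi c with i < d, (1 + t * x i) * (1 + q * s * x i)) *
        ∏ i ∈ Ioi c with d < i, (1 + q * t * x i) * (1 + s * x i) := by
    rw [prod_filter, prod_filter, ← prod_mul_distrib]
    refine prod_congr rfl fun i hi => ?_
    rw [wt_lt q (mem_Ioi.1 hi)]
    rcases lt_trichotomy i d with h | rfl | h
    · rw [if_pos h, if_neg (lt_asymm h), wt_lt q h, wt_gt q h]; ring
    · rw [if_neg (lt_irrefl _), if_neg (lt_irrefl _), wt_self]; ring
    · rw [if_neg (lt_asymm h), if_pos h, wt_gt q h, wt_lt q h]; ring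
  rw [prod_split c, hlow, hhigh, wt_self, wt_gt q hcd]
  ring

/-- The contribution of the colours `d` below `c`. -/
theorem pair_low (q : R) (x : Fin N → R) (t s : R) (c : Fin N) :
    (q - 1) * (q * t - s) * (∑ d ∈ Iio c, wt q c d * x d *
        (∏ i, (1 + t * (wt q c i * wt q i d * x i))) * ∏ i, (1 + s * (wt q d i * x i))) =
      q * (1 + s * x c) * (∏ i ∈ Ioi c, (1 + q * t * x i) * (1 + s * x i)) *
        ((∏ i ∈ Iio c, (1 + q * q * t * x i) * (1 + s * x i)) -
          ∏ i ∈ Iio c, (1 + q * t * x i) * (1 + q * s * x i)) := by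
  have htele := sum_tele (Iio c) (fun i => (1 + q * q * t * x i) * (1 + s * x i))
    (fun i => (1 + q * t * x i) * (1 + q * s * x i))
  rw [← neg_sub (∏ i ∈ Iio c, (1 + q * t * x i) * (1 + q * s * x i)), ← htele, mul_sum,
    ← sum_neg_distrib, mul_sum]
  refine sum_congr rfl fun d hd => ?_
  have hdc : d < c := mem_Iio.1 hd
  rw [mul_assoc (wt q c d * x d), ← prod_mul_distrib, wt_gt q hdc]
  have hhigh : ∏ i ∈ Ioi c, (1 + t * (wt q c i * wt q i d * x i)) * (1 + s * (wt q d i * x i)) =
      ∏ i ∈ Ioi c, (1 + q * t * x i) * (1 + s * x i) := by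
    refine prod_congr rfl fun i hi => ?_
    have hci : c < i := mem_Ioi.1 hi
    rw [wt_lt q hci, wt_gt q (hdc.trans hci), wt_lt q (hdc.trans hci)]
    ring
  have hlow : ∏ i ∈ Iio c, (1 + t * (wt q c i * wt q i d * x i)) * (1 + s * (wt q d i * x i)) =
      (∏ i ∈ Iio c with i < d, (1 + q * t * x i) * (1 + q * s * x i)) *
        ∏ i ∈ Iio c with d < i, (1 + q * q * t * x i) * (1 + s * x i) := by
    rw [prod_filter, prod_filter, ← prod_mul_distrib]
    refine prod_congr rfl fun i hi => ?_
    rw [wt_gt q (mem_Iio.1 hi)]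
    rcases lt_trichotomy i d with h | rfl | h
    · rw [if_pos h, if_neg (lt_asymm h), wt_lt q h, wt_gt q h]; ring
    · rw [if_neg (lt_irrefl _), if_neg (lt_irrefl _), wt_self]; ring
    · rw [if_neg (lt_asymm h), if_pos h, wt_gt q h, wt_lt q h]; ring
  rw [prod_split c, hlow, hhigh, wt_self, wt_lt q hdc]
  ring

/-- The kernel identity. -/
theorem cliquePair_eq (q : R) (x : Fin N → R) (t s : R) (c : Fin N) :
    (q - 1) * (q * t - s) * (t - s) * cliquePair q x t s c =
      q * (t - s) * ((∏ i, (1 + s * x i)) * ∏ i, (1 + q * t * (wt q c i * x i))) -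
        (q * t - s) * ((∏ i, (1 + q * s * x i)) * ∏ i, (1 + t * (wt q c i * x i))) +
        (q - 1) * s * ((∏ i, (1 + q * t * x i)) * ∏ i, (1 + s * (wt q c i * x i))) := by
  have huniv : cliquePair q x t s c =
      (∑ d ∈ Iio c, wt q c d * x d * (∏ i, (1 + t * (wt q c i * wt q i d * x i))) *
        ∏ i, (1 + s * (wt q d i * x i))) +
      ∑ d ∈ Ioi c, wt q c d * x d * (∏ i, (1 + t * (wt q c i * wt q i d * x i))) *
        ∏ i, (1 + s * (wt q d i * x i)) := by
    unfold cliquePair
    rw [← sum_union (disjoint_left.2 fun i hi hi' =>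
      lt_asymm (mem_Iio.1 hi) (mem_Ioi.1 hi'))]
    refine (sum_subset (subset_univ _) fun d _ hd => ?_).symm
    obtain rfl : d = c := by
      simp only [mem_union, mem_Iio, mem_Ioi, not_or, not_lt] at hd
      exact le_antisymm hd.2 hd.1
    rw [wt_self]; ring
  calc (q - 1) * (q * t - s) * (t - s) * cliquePair q x t s c
      = (t - s) * ((q - 1) * (q * t - s) * (∑ d ∈ Iio c, wt q c d * x d *
          (∏ i, (1 + t * (wt q c i * wt q i d * x i))) * ∏ i, (1 + s * (wt q d i * x i)))) +
        (q * t - s) * ((q - 1) * (t - s) * (∑ d ∈ Ioi c, wt q c d * x d *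
          (∏ i, (1 + t * (wt q c i * wt q i d * x i))) * ∏ i, (1 + s * (wt q d i * x i)))) := by
        rw [huniv]; ring
    _ = _ := by
        rw [pair_low, pair_high]
        simp only [gen_split q x _ c, prod_split c (fun i => 1 + s * x i),
          prod_split c (fun i => 1 + q * s * x i), prod_split c (fun i => 1 + q * t * x i),
          prod_mul_distrib]
        simp only [← mul_assoc]
        ring

end Vale.Agent.P066.Colour
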