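import Vale.Agent.P066.Colour.Cone
import Vale.Agent.P066.Colour.CliqueId

/-!
A clique between two cut vertices maps the positive cone with one active vertex to itself.
-/

namespace Vale.Agent.P066.Colour

open Finset Polynomial

variable {R : Type*} [CommRing R] {N : ℕ}

/-- The coefficient of `t^i s^j`. -/
noncomputable def ct (p : Polynomial (Polynomial R)) (i j : ℕ) : R := (p.coeff i).coeff j

theorem coeff_genProd (w : Fin N → R) (k : ℕ) :
    (∏ i, (1 + C (w i) * (X : Polynomial R))).coeff k = esym w k := by
  rw [prod_one_add, finsetSum_coeff, esym, powersetCard_eq_filter, sum_filter]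
  refine sum_congr rfl fun T _ => ?_
  rw [prod_mul_distrib, prod_const, ← map_prod, coeff_C_mul_X_pow]
  by_cases h : T.card = k
  · rw [if_pos h.symm, if_pos h]
  · rw [if_neg (Ne.symm h), if_neg h]

theorem esym_scale (a : R) (w : Fin N → R) (k : ℕ) :
    esym (fun i => a * w i) k = a ^ k * esym w k := by
  unfold esym
  rw [mul_sum]
  refine sum_congr rfl fun T hT => ?_
  rw [prod_mul_distrib, prod_const, (mem_powersetCard.1 hT).2]

/-- A product in the first variable. -/
noncomputable def pT (w : Fin N → R) : Polynomial (Polynomial R) :=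
  (∏ i, (1 + C (w i) * (X : Polynomial R))).map C

/-- A product in the second variable. -/
noncomputable def pS (w : Fin N → R) : Polynomial (Polynomial R) :=
  C (∏ i, (1 + C (w i) * (X : Polynomial R)))

theorem ct_pT_pS (w v : Fin N → R) (i j : ℕ) :
    ct (pT w * pS v) i j = esym w i * esym v j := by
  rw [ct, pS, coeff_mul_C, pT, coeff_map, coeff_C_mul, coeff_genProd, coeff_genProd]

theorem pT_eq (w : Fin N → R) :
    pT w = ∏ i, (1 + X * (C (C (w i)) : Polynomial (Polynomial R))) := by
  unfold pT
  rw [Polynomial.map_prod]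
  refine prod_congr rfl fun i _ => ?_
  simp only [Polynomial.map_add, Polynomial.map_one, Polynomial.map_mul, map_C, map_X]
  ring

theorem pS_eq (w : Fin N → R) :
    pS w = ∏ i, (1 + C X * (C (C (w i)) : Polynomial (Polynomial R))) := by
  unfold pS
  rw [map_prod]
  refine prod_congr rfl fun i _ => ?_
  rw [map_add, map_one, map_mul]
  ring

theorem ct_shift_X (p : Polynomial (Polynomial R)) (i j : ℕ) :
    ct (X * p) (i + 1) j = ct p i j := by
  rw [ct, coeff_X_mul, ct]

theorem ct_X_zero (p : Polynomial (Polynomial R)) (j : ℕ) : ct (X * p) 0 j = 0 := by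
  rw [ct, mul_coeff_zero, coeff_X_zero, zero_mul, Polynomial.coeff_zero]

theorem ct_shift_S (p : Polynomial (Polynomial R)) (i j : ℕ) :
    ct (C X * p) i (j + 1) = ct p i j := by
  rw [ct, coeff_C_mul, coeff_X_mul, ct]

theorem ct_scal (a : R) (p : Polynomial (Polynomial R)) (i j : ℕ) :
    ct (C (C a) * p) i j = a * ct p i j := by
  rw [ct, coeff_C_mul, coeff_C_mul, ct]

theorem ct_add (p r : Polynomial (Polynomial R)) (i j : ℕ) :
    ct (p + r) i j = ct p i j + ct r i j := by
  rw [ct, coeff_add, coeff_add, ct, ct]

theorem ct_sub (p r : Polynomial (Polynomial R)) (i j : ℕ) :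
    ct (p - r) i j = ct p i j - ct r i j := by
  rw [ct, coeff_sub, coeff_sub, ct, ct]

variable (q : R) (x : Fin N → R) (c : Fin N)

/-- The pointed atom seen from `c`, without the variable of `c`. -/
def eAt (k : ℕ) : R := esym (fun i => wt q c i * x i) k

/-- The coefficients of `cliquePair`. -/
def cliqueCoef (i j : ℕ) : R :=
  ∑ d, wt q c d * x d * esym (fun l => wt q c l * wt q l d * x l) i *
    esym (fun l => wt q d l * x l) j

theorem ct_pair (i j : ℕ) :
    ct (cliquePair (C (C q)) (fun l => C (C (x l))) X (C X) c) i j = cliqueCoef q x c i j := by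
  have hw : ∀ a b : Fin N, wt (C (C q) : Polynomial (Polynomial R)) a b = C (C (wt q a b)) := by
    intro a b; unfold wt; split_ifs <;> simp
  unfold cliquePair cliqueCoef
  rw [ct, finsetSum_coeff, finsetSum_coeff]
  refine sum_congr rfl fun d _ => ?_
  have e : wt (C (C q) : Polynomial (Polynomial R)) c d * C (C (x d)) *
      (∏ l, (1 + X * (wt (C (C q)) c l * wt (C (C q)) l d * C (C (x l))))) *
      ∏ l, (1 + C X * (wt (C (C q)) d l * C (C (x l)))) =
      C (C (wt q c d * x d)) *
        (pT (fun l => wt q c l * wt q l d * x l) * pS (fun l => wt q d l * x l)) := by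
    simp only [hw, pT_eq, pS_eq, map_mul]
    ring
  rw [e]
  change ct _ i j = _
  rw [ct_scal, ct_pT_pS]
  ring

/-- The right hand side of the kernel identity, coefficientwise. -/
theorem ct_rhs (i j : ℕ) :
    (q - 1) * (q * ct (X * (X * cliquePair (C (C q)) (fun l => C (C (x l))) X (C X) c)) i (j + 2)
      - (q + 1) * ct (X * cliquePair (C (C q)) (fun l => C (C (x l))) X (C X) c) i (j + 1)
      + cliqueCoef q x c i j) =
    q * (ct (X * (pT (fun l => q * (wt q c l * x l)) * pS x)) i (j + 2) -
        q ^ i * eAt q x c i * esym x (j + 1)) -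
      (q * ct (X * (pT (fun l => wt q c l * x l) * pS (fun l => q * x l))) i (j + 2) -
        eAt q x c i * (q ^ (j + 1) * esym x (j + 1))) +
      (q - 1) * (q ^ i * esym x i * eAt q x c (j + 1)) := by
  have hw : ∀ a b : Fin N, wt (C (C q) : Polynomial (Polynomial R)) a b = C (C (wt q a b)) := by
    intro a b; unfold wt; split_ifs <;> simp
  set S := cliquePair (C (C q)) (fun l => C (C (x l))) X (C X) c with hS
  have key := cliquePair_eq (C (C q)) (fun l => C (C (x l)) : Fin N → Polynomial (Polynomial R))
    X (C X) c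
  rw [← hS] at key
  have key' : C (C (q - 1)) * (C (C q) * (X * (X * S)) - C (C (q + 1)) * (C X * (X * S)) +
        C X * (C X * S)) =
      C (C q) * (X * (pT (fun l => q * (wt q c l * x l)) * pS x) -
          C X * (pT (fun l => q * (wt q c l * x l)) * pS x)) -
        (C (C q) * (X * (pT (fun l => wt q c l * x l) * pS (fun l => q * x l))) -
          C X * (pT (fun l => wt q c l * x l) * pS (fun l => q * x l))) +
        C (C (q - 1)) * (C X * (pT (fun l => q * x l) * pS (fun l => wt q c l * x l))) := by
    simp only [hw] at key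
    simp only [pT_eq, pS_eq, map_mul, map_sub, map_add, map_one]
    have c1 : ∀ (a : Fin N → Polynomial (Polynomial R)),
        ∏ l, (1 + C (C q) * X * a l) = ∏ l, (1 + X * (C (C q) * a l)) :=
      fun a => prod_congr rfl fun l _ => by ring
    have c2 : ∀ (a : Fin N → Polynomial (Polynomial R)),
        ∏ l, (1 + C (C q) * C X * a l) = ∏ l, (1 + C X * (C (C q) * a l)) :=
      fun a => prod_congr rfl fun l _ => by ring
    simp only [c1, c2] at key
    linear_combination key
  have h := congrArg (fun p => ct p i (j + 2)) key'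
  simp only [ct_scal, ct_add, ct_sub, ct_shift_S] at h
  have hS' : ct S i j = cliqueCoef q x c i j := ct_pair q x c i j
  rw [hS'] at h
  simp only [ct_pT_pS, esym_scale] at h
  rw [eAt, eAt]
  linear_combination h

/-- The closed form of `(q-1)` times the coefficients. -/
def cliqueV (i n : ℕ) : R :=
  ∑ k ∈ range i, ((q ^ i - q ^ k) * (esym x k * eAt q x c (n - k)) +
    (q ^ (n - k) - q ^ i) * (esym x (n - k) * eAt q x c k))

theorem coef_eq_V : ∀ i j : ℕ,
    (q - 1) * cliqueCoef q x c i j = cliqueV q x c (i + 1) (i + j + 1) := by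
  intro i
  induction i using Nat.strong_induction_on with
  | _ i ih =>
    intro j
    have h := ct_rhs q x c i j
    rcases i with - | i
    · simp only [ct_X_zero] at h
      simp only [cliqueV, sum_range_one, pow_zero, Nat.sub_zero, zero_add] at h ⊢
      linear_combination h
    · simp only [ct_shift_X, ct_pT_pS, esym_scale] at h
      rw [ct_pair q x c i (j + 1)] at h
      rcases i with - | i
      · simp only [ct_X_zero] at h
        have h0 := ih 0 (by omega) (j + 1)
        simp only [cliqueV, sum_range_succ, sum_range_zero, eAt, Nat.sub_zero, zero_add,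
          pow_zero,
          show j + 1 + 1 = j + 2 by omega, show 1 + j + 1 = j + 2 by omega,
          show j + 2 - 1 = j + 1 by omega] at h h0 ⊢
        linear_combination h + (q + 1) * h0
      · simp only [ct_shift_X] at h
        rw [ct_pair q x c i (j + 2)] at h
        have h1 := ih (i + 1) (by omega) (j + 1)
        have h0 := ih i (by omega) (j + 2)
        rw [show i + 1 + (j + 1) + 1 = i + j + 3 by omega] at h1
        rw [show i + (j + 2) + 1 = i + j + 3 by omega] at h0
        rw [show i + 1 + 1 + j + 1 = i + j + 3 by omega]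
        have hrec : cliqueV q x c (i + 2 + 1) (i + j + 3) -
            (q + 1) * cliqueV q x c (i + 1 + 1) (i + j + 3) +
            q * cliqueV q x c (i + 1) (i + j + 3) =
            ((q ^ (i + 3) - q ^ (i + 2)) * (esym x (i + 2) * eAt q x c (j + 1)) +
              (q ^ (j + 1) - q ^ (i + 3)) * (esym x (j + 1) * eAt q x c (i + 2))) +
            (-q) * ((q ^ (j + 2) - q ^ (i + 1)) * (esym x (j + 2) * eAt q x c (i + 1))) := by
          simp only [cliqueV, sum_range_succ,
            show i + j + 3 - (i + 2) = j + 1 by omega,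
            show i + j + 3 - (i + 1) = j + 2 by omega]
          have hs : ∑ k ∈ range i, ((q ^ (i + 2 + 1) - q ^ k) *
                (esym x k * eAt q x c (i + j + 3 - k)) +
              (q ^ (i + j + 3 - k) - q ^ (i + 2 + 1)) *
                (esym x (i + j + 3 - k) * eAt q x c k)) -
              (q + 1) * ∑ k ∈ range i, ((q ^ (i + 1 + 1) - q ^ k) *
                (esym x k * eAt q x c (i + j + 3 - k)) +
              (q ^ (i + j + 3 - k) - q ^ (i + 1 + 1)) *
                (esym x (i + j + 3 - k) * eAt q x c k)) +
              q * ∑ k ∈ range i, ((q ^ (i + 1) - q ^ k) *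
                (esym x k * eAt q x c (i + j + 3 - k)) +
              (q ^ (i + j + 3 - k) - q ^ (i + 1)) *
                (esym x (i + j + 3 - k) * eAt q x c k)) = 0 := by
            rw [mul_sum, mul_sum, ← sum_sub_distrib, ← sum_add_distrib]
            exact sum_eq_zero fun k _ => by ring
          linear_combination hs
        simp only [eAt] at h hrec ⊢
        linear_combination h + (q + 1) * h1 - q * h0 - hrec

/-- The positive closed form. -/
def cliqueP (i j : ℕ) : R :=
  (∑ k ∈ range (min i j + 1), q ^ k * qint q (i + 1 - k) *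
    (esym x k * eAt q x c (i + j + 1 - k))) +
  ∑ k ∈ range (min (i + 1) j), q ^ (i + 1) * qint q (j - k) *
    (esym x (i + j + 1 - k) * eAt q x c k)

theorem qint_telescope (m : ℕ) : (q - 1) * qint q m = q ^ m - 1 := mul_geom_sum q m

theorem P_eq_V (i j : ℕ) :
    (q - 1) * cliqueP q x c i j = cliqueV q x c (i + 1) (i + j + 1) := by
  set n := i + j + 1 with hn
  have hX : ∀ k ∈ range (min i j + 1), (q - 1) * (q ^ k * qint q (i + 1 - k) *
      (esym x k * eAt q x c (n - k))) = (q ^ (i + 1) - q ^ k) * (esym x k * eAt q x c (n - k)) := by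
    intro k hk
    have hki : k ≤ i := by rw [mem_range] at hk; omega
    have hp : q ^ k * q ^ (i + 1 - k) = q ^ (i + 1) := by
      rw [← pow_add]; congr 1; omega
    linear_combination (q ^ k * (esym x k * eAt q x c (n - k))) * qint_telescope q (i + 1 - k) +
      (esym x k * eAt q x c (n - k)) * hp
  have hY : ∀ k ∈ range (min (i + 1) j), (q - 1) * (q ^ (i + 1) * qint q (j - k) *
      (esym x (n - k) * eAt q x c k)) =
      (q ^ (n - k) - q ^ (i + 1)) * (esym x (n - k) * eAt q x c k) := by
    intro k hk
    have hkj : k < j := by rw [mem_range] at hk; omega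
    have hp : q ^ (i + 1) * q ^ (j - k) = q ^ (n - k) := by
      rw [← pow_add]; congr 1; omega
    linear_combination (q ^ (i + 1) * (esym x (n - k) * eAt q x c k)) * qint_telescope q (j - k) +
      (esym x (n - k) * eAt q x c k) * hp
  rw [cliqueP, mul_add, mul_sum, mul_sum, sum_congr rfl hX, sum_congr rfl hY, cliqueV,
    sum_add_distrib]
  rcases le_or_gt i j with hij | hij
  · congr 1
    · rw [min_eq_left hij]
    · rcases Nat.lt_or_ge i j with h | h
      · rw [min_eq_left (by omega : i + 1 ≤ j)]
      · obtain rfl : i = j := le_antisymm hij h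
        rw [min_eq_right (by omega : i ≤ i + 1), sum_range_succ,
          show n - i = i + 1 by omega, sub_self, zero_mul, add_zero]
  · rw [min_eq_right hij.le, min_eq_right (by omega : j ≤ i + 1)]
    rw [← sum_range_add_sum_Ico (fun k => (q ^ (i + 1) - q ^ k) * (esym x k * eAt q x c (n - k)))
        (show j + 1 ≤ i + 1 by omega),
      ← sum_range_add_sum_Ico (fun k => (q ^ (n - k) - q ^ (i + 1)) *
        (esym x (n - k) * eAt q x c k)) (show j ≤ i + 1 by omega),
      sum_eq_sum_Ico_succ_bot (show j < i + 1 by omega)]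
    have hz : q ^ (n - j) - q ^ (i + 1) = 0 := by rw [show n - j = i + 1 by omega, sub_self]
    have hrefl : ∑ k ∈ Ico (j + 1) (i + 1), (q ^ (n - k) - q ^ (i + 1)) *
          (esym x (n - k) * eAt q x c k) =
        ∑ k ∈ Ico (j + 1) (i + 1), (q ^ k - q ^ (i + 1)) * (esym x k * eAt q x c (n - k)) := by
      refine sum_nbij' (fun k => n - k) (fun k => n - k) ?_ ?_ ?_ ?_ ?_ <;>
        intro k hk <;> simp only [mem_Ico] at hk ⊢
      all_goals try omega
      rw [show n - (n - k) = k by omega]
    rw [hz, zero_mul, zero_add, hrefl]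
    have hc : ∑ k ∈ Ico (j + 1) (i + 1), (q ^ (i + 1) - q ^ k) * (esym x k * eAt q x c (n - k)) +
        ∑ k ∈ Ico (j + 1) (i + 1), (q ^ k - q ^ (i + 1)) * (esym x k * eAt q x c (n - k)) = 0 := by
      rw [← sum_add_distrib]
      exact sum_eq_zero fun k _ => by ring
    linear_combination -hc

/-- The contracted clique kernel is positive in the atoms. -/
theorem cliqueCoef_eq [IsDomain R] (hq : q ≠ 1) (i j : ℕ) :
    cliqueCoef q x c i j = cliqueP q x c i j :=
  mul_left_cancel₀ (sub_ne_zero.2 hq) ((coef_eq_V q x c i j).trans (P_eq_V q x c i j).symm)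

end Vale.Agent.P066.Colour
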