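import Vale.Agent.P066.Colour.DU

/-!
The positive cones and their closure under the transfer operators.
-/

namespace Vale.Agent.P066.Colour

open Finset

variable {R : Type*} [CommRing R] {N : ℕ} (q : R) (x : Fin N → R)

/-- Positive scalars: the semiring generated by `q` and the elementary symmetric functions. -/
def posS : Subsemiring R := Subsemiring.closure (insert q (Set.range (esym x)))

/-- Combinations of a set with positive scalars. -/
def cone {M : Type*} [AddCommMonoid M] [Module R M] (S : Set M) : AddSubmonoid M :=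
  AddSubmonoid.closure {v | ∃ a ∈ posS q x, ∃ g ∈ S, v = a • g}

/-- Generators of the cone with one active vertex. -/
def gen1 : Set (V1 R N) := Set.range (phi q x)

/-- Generators of the cone with two active vertices. -/
def gen2 : Set (V2 R N) :=
  (Set.range (F2 q x) ∪ Set.range fun a => opA q x (phi q x a)) ∪
    {v | ∃ m j, 1 ≤ j ∧ 2 * j ≤ m ∧ (v = uS q x m j ∨ v = opP q x (uS q x m j))}

/-- The cone with one active vertex. -/
def C1 : AddSubmonoid (V1 R N) := cone q x (gen1 q x)

/-- The cone with two active vertices. -/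
def C2 : AddSubmonoid (V2 R N) := cone q x (gen2 q x)

theorem q_mem : q ∈ posS q x := Subsemiring.subset_closure (Set.mem_insert _ _)

theorem e_mem (a : ℕ) : esym x a ∈ posS q x :=
  Subsemiring.subset_closure (Set.mem_insert_of_mem _ ⟨a, rfl⟩)

theorem qpow_mem (m : ℕ) : q ^ m ∈ posS q x := pow_mem (q_mem q x) m

theorem qint_mem (m : ℕ) : qint q m ∈ posS q x := sum_mem fun j _ => qpow_mem q x j

theorem one_add_q_mem : 1 + q ∈ posS q x := add_mem (one_mem _) (q_mem q x)

variable {M M' : Type*} [AddCommMonoid M] [Module R M] [AddCommMonoid M'] [Module R M']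

theorem gen_mem {S : Set M} {a : R} (ha : a ∈ posS q x) {g : M} (hg : g ∈ S) :
    a • g ∈ cone q x S :=
  AddSubmonoid.subset_closure ⟨a, ha, g, hg, rfl⟩

theorem smul_mem_cone {S : Set M} {a : R} (ha : a ∈ posS q x) {v : M} (hv : v ∈ cone q x S) :
    a • v ∈ cone q x S := by
  unfold cone at hv ⊢
  induction hv using AddSubmonoid.closure_induction with
  | mem v h =>
    obtain ⟨b, hb, g, hg, rfl⟩ := h
    rw [smul_smul]
    exact gen_mem q x (mul_mem ha hb) hg
  | zero => rw [smul_zero]; exact zero_mem _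
  | add u v _ _ hu hv => rw [smul_add]; exact add_mem hu hv

theorem map_cone {S : Set M} {T : Set M'} (f : M →ₗ[R] M')
    (h : ∀ g ∈ S, f g ∈ cone q x T) {v : M} (hv : v ∈ cone q x S) : f v ∈ cone q x T := by
  unfold cone at hv
  induction hv using AddSubmonoid.closure_induction with
  | mem v hv =>
    obtain ⟨b, hb, g, hg, rfl⟩ := hv
    rw [map_smul]
    exact smul_mem_cone q x hb (h g hg)
  | zero => rw [map_zero]; exact zero_mem _
  | add u v _ _ hu hv => rw [map_add]; exact add_mem hu hv

theorem phi_mem {a : R} (ha : a ∈ posS q x) (k : ℕ) : a • phi q x k ∈ C1 q x :=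
  gen_mem q x ha ⟨k, rfl⟩

theorem F2_mem {a : R} (ha : a ∈ posS q x) (k : ℕ) : a • F2 q x k ∈ C2 q x :=
  gen_mem q x ha (Or.inl (Or.inl ⟨k, rfl⟩))

theorem Aphi_mem {a : R} (ha : a ∈ posS q x) (k : ℕ) :
    a • opA q x (phi q x k) ∈ C2 q x :=
  gen_mem q x ha (Or.inl (Or.inr ⟨k, rfl⟩))

theorem uS_mem {a : R} (ha : a ∈ posS q x) {m j : ℕ} (hj : 1 ≤ j) (hm : 2 * j ≤ m) :
    a • uS q x m j ∈ C2 q x :=
  gen_mem q x ha (Or.inr ⟨m, j, hj, hm, Or.inl rfl⟩)

theorem mAt_mem {a : R} (ha : a ∈ posS q x) (k : ℕ) : a • mAt q x (k + 2) ∈ C2 q x := by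
  rw [← uS_one]
  exact uS_mem q x ha le_rfl (by omega)

theorem opA_mem {v : V1 R N} (hv : v ∈ C1 q x) : opA q x v ∈ C2 q x := by
  refine map_cone q x (opA q x) ?_ hv
  rintro g ⟨k, rfl⟩
  simpa [C2] using Aphi_mem q x (one_mem _) k

theorem opD1_mem {v : V1 R N} (hv : v ∈ C1 q x) : opD1 v ∈ posS q x := by
  unfold C1 cone at hv
  induction hv using AddSubmonoid.closure_induction with
  | mem v hv =>
    obtain ⟨b, hb, g, ⟨k, rfl⟩, rfl⟩ := hv
    rw [map_smul, opD1_phi]
    exact mul_mem hb (mul_mem (qint_mem q x _) (e_mem q x _))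
  | zero => rw [map_zero]; exact zero_mem _
  | add u v _ _ hu hv => rw [map_add]; exact add_mem hu hv

theorem dU_mem (m j : ℕ) : dU q x m j ∈ C1 q x := by
  rw [dU, xS, yS]
  refine add_mem (smul_mem_cone q x (qint_mem q x _) ?_)
    (smul_mem_cone q x (mul_mem (qpow_mem q x _) (qint_mem q x _)) ?_)
  · exact sum_mem fun r _ =>
      phi_mem q x (mul_mem (mul_mem (qpow_mem q x _) (qint_mem q x _)) (e_mem q x _)) _
  · exact sum_mem fun r _ => phi_mem q x (mul_mem (qint_mem q x _) (e_mem q x _)) _

/-- `v ↦ D (A v) + q y v`, the value of `D P G` in terms of `D G`. -/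
def opL : V1 R N →ₗ[R] V1 R N := opD ∘ₗ opA q x + q • opY q x

/-- `v ↦ P A v + q A y v`, the value of `P P G - Q G` in terms of `D G`. -/
def opPhi : V1 R N →ₗ[R] V2 R N := opP q x ∘ₗ opA q x + q • (opA q x ∘ₗ opY q x)

theorem opD_opP {G : V2 R N} (hG : Fixed q G) :
    opD (opP q x G) = opL q x (opD G) := by
  change opD (opA q x (opD G) + opZ q x G) = opD (opA q x (opD G)) + q • opY q x (opD G)
  rw [map_add, opD_opZ_fixed q x hG]

theorem opP_opP {G : V2 R N} (hG : Fixed q G) :
    opP q x (opP q x G) = opQ q x G + opPhi q x (opD G) := by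
  change opA q x (opD (opA q x (opD G) + opZ q x G)) + opZ q x (opA q x (opD G) + opZ q x G) =
    opZ q x (opZ q x G) + ((opA q x (opD (opA q x (opD G))) + opZ q x (opA q x (opD G))) +
      q • opA q x (opY q x (opD G)))
  simp only [map_add]
  rw [opD_opZ_fixed q x hG, map_smul]
  abel

theorem opL_phi (k : ℕ) :
    opL q x (phi q x k) = (1 + q) • phi q x (k + 1) +
      ((qint q (k + 1) - 1 - q) * esym x (k + 1)) • phi q x 0 := by
  change opD (opA q x (phi q x k)) + q • opY q x (phi q x k) = _
  rw [opD_Aphi, opY_phi]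
  module

theorem opPhi_phi (k : ℕ) :
    opPhi q x (phi q x k) = gAt q x (k + 1) + q • opA q x (phi q x (k + 1)) +
      ((q * qint q k - q) * esym x (k + 1)) • F2 q x 0 := by
  change opA q x (opD (opA q x (phi q x k))) + opZ q x (opA q x (phi q x k)) +
    q • opA q x (opY q x (phi q x k)) = _
  rw [opD_Aphi, opZ_Aphi, opY_phi, map_add, map_sub, map_smul, map_smul, opA_phi_zero,
    qint_succ']
  module

/-- `P` on the elementary generators. -/
theorem opP_F2 (a : ℕ) :
    opP q x (F2 q x a) = F2 q x (a + 1) + (q * qint q a) • opA q x (phi q x (a + 1)) := by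
  change opA q x (opD (F2 q x a)) + opZ q x (F2 q x a) = _
  rw [opD_F2, opZ_F2, map_smul, qint_succ']
  module

theorem opP_Aphi (a : ℕ) :
    opP q x (opA q x (phi q x a)) =
      gAt q x (a + 1) + (q * qint q a * esym x (a + 1)) • F2 q x 0 := by
  change opA q x (opD (opA q x (phi q x a))) + opZ q x (opA q x (phi q x a)) = _
  rw [opD_Aphi, opZ_Aphi, map_add, map_smul, opA_phi_zero, qint_succ']
  module

theorem qint_cancel (t l : ℕ) :
    qint q (t + 1) * qint q (l + 1) - qint q t = q ^ t + q * qint q (t + 1) * qint q l := by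
  rw [qint_succ' q l, qint_succ q t]
  ring

/-- A repeated `Φ φ_{l+2}` covers one copy of `G_{l+3}`. -/
theorem cover (t l : ℕ) :
    qint q (t + 1) • opPhi q x (phi q x (l + 2)) - gAt q x (l + 3) =
      (q * qint q t) • mAt q x (l + 3) +
        (q * qint q (t + 1)) • opA q x (phi q x (l + 3)) +
        (q ^ 2 * (q ^ t + q * qint q (t + 1) * qint q l) * esym x (l + 3)) • F2 q x 0 := by
  rw [opPhi_phi, mAt_eq, ← qint_cancel, qint_succ' q t, qint_succ' q (l + 1)]
  module

theorem opD_gen {g : V2 R N} (hg : g ∈ gen2 q x) : opD g ∈ C1 q x := by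
  rcases hg with (⟨a, rfl⟩ | ⟨a, rfl⟩) | ⟨m, j, hj, hm, rfl | rfl⟩
  · rw [opD_F2]
    exact phi_mem q x (qint_mem q x _) _
  · simp only
    rw [opD_Aphi, qint_succ', add_sub_cancel_left]
    refine add_mem ?_ (phi_mem q x (mul_mem (mul_mem (q_mem q x) (qint_mem q x _)) (e_mem q x _)) _)
    simpa using phi_mem q x (one_mem _) (a + 1)
  · rw [opD_uS q x j m (by omega) (by omega)]
    exact dU_mem q x m j
  · rw [opD_opP q x (fixed_uS q x j m), opD_uS q x j m (by omega) (by omega), dU, xS, yS]
    obtain ⟨i, rfl⟩ : ∃ i, j = i + 1 := ⟨j - 1, by omega⟩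
    obtain ⟨w, rfl⟩ : ∃ w, m = 2 * i + 2 + w := ⟨m - (2 * i + 2), by omega⟩
    simp only [map_add, map_smul, map_sum, opL_phi]
    rw [sum_range_succ' _ (i + 1), sum_range_succ' _ i, sum_range_succ' _ i]
    simp only [esym_zero, pow_zero, Nat.sub_zero, zero_add, pow_one]
    have hmain : ∀ k, (1 + q) • phi q x (k + 3) +
        ((qint q (k + 3) - 1 - q) * esym x (k + 3)) • phi q x 0 ∈ C1 q x := fun k => by
      refine add_mem (phi_mem q x (one_add_q_mem q x) _) ?_
      rw [show qint q (k + 3) - 1 - q = q ^ 2 * qint q (k + 1) by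
        rw [qint_succ' q (k + 2), qint_succ' q (k + 1)]; ring]
      exact phi_mem q x (mul_mem (mul_mem (qpow_mem q x _) (qint_mem q x _)) (e_mem q x _)) _
    have hmain' : ∀ k, 1 ≤ k → (1 + q) • phi q x (k + 1) +
        ((qint q (k + 1) - 1 - q) * esym x (k + 1)) • phi q x 0 ∈ C1 q x := fun k hk => by
      obtain ⟨l, rfl⟩ : ∃ l, k = l + 1 := ⟨k - 1, by omega⟩
      refine add_mem (phi_mem q x (one_add_q_mem q x) _) ?_
      rw [show qint q (l + 1 + 1) - 1 - q = q ^ 2 * qint q l by
        rw [qint_succ' q (l + 1), qint_succ' q l]; ring]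
      exact phi_mem q x (mul_mem (mul_mem (qpow_mem q x _) (qint_mem q x _)) (e_mem q x _)) _
    rw [show 2 * i + 2 + w + 1 - 1 = 2 * i + 2 + w by omega,
      show 2 * i + 2 + w + 1 + 1 = 2 * i + w + 1 + 3 by omega,
      show 2 * i + 2 + w - (i + 1) = i + 1 + w by omega,
      show i + 1 + 1 - 1 = i + 1 by omega]
    have hneg : qint q (i + 1) * (q * qint q (i + 1) *
          (qint q (2 * i + 2 + w + 1) - 1 - q)) -
        q ^ (i + 1 + 1) * qint q (i + 1 + w) * (qint q (i + 1) * q) =
        q ^ 3 * qint q (i + 1) *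
          (qint q i * qint q (2 * i + 1 + w) + q ^ (i + (i + 1 + w)) * qint q i) := by
      rw [show 2 * i + 2 + w + 1 = (2 * i + 1 + w) + 1 + 1 by omega,
        qint_succ' q (2 * i + 1 + w + 1), qint_succ' q (2 * i + 1 + w),
        qint_split q (show 2 * i + 1 + w = (i + 1 + w) + i by omega), qint_succ q i]
      ring
    have key : ∀ (S T : V1 R N), S ∈ C1 q x → T ∈ C1 q x →
        qint q (i + 1) • (S + (q * qint q (i + 1) * esym x 1) •
          ((1 + q) • phi q x (2 * i + 2 + w + 1) +
            ((qint q (2 * i + 2 + w + 1) - 1 - q) * esym x (2 * i + 2 + w + 1)) • phi q x 0)) +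
        (q ^ (i + 1 + 1) * qint q (i + 1 + w)) • (T +
          (qint q (i + 1) * esym x (2 * i + 2 + w + 1)) •
            ((1 + q) • phi q x 1 + ((qint q 1 - 1 - q) * esym x 1) • phi q x 0)) ∈ C1 q x := by
      intro S T hS hT
      have hrw : ∀ a b : R,
          qint q (i + 1) • (S + (q * qint q (i + 1) * esym x 1) •
            (a • phi q x (2 * i + 2 + w + 1) +
              ((qint q (2 * i + 2 + w + 1) - 1 - q) * esym x (2 * i + 2 + w + 1)) • phi q x 0)) +
          (q ^ (i + 1 + 1) * qint q (i + 1 + w)) • (T +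
            (qint q (i + 1) * esym x (2 * i + 2 + w + 1)) •
              (b • phi q x 1 + ((qint q 1 - 1 - q) * esym x 1) • phi q x 0)) =
          qint q (i + 1) • S + (q ^ (i + 1 + 1) * qint q (i + 1 + w)) • T +
            (qint q (i + 1) * (q * qint q (i + 1) * esym x 1) * a) •
              phi q x (2 * i + 2 + w + 1) +
            (q ^ (i + 1 + 1) * qint q (i + 1 + w) *
              (qint q (i + 1) * esym x (2 * i + 2 + w + 1)) * b) • phi q x 1 +
            (q ^ 3 * qint q (i + 1) * (qint q i * qint q (2 * i + 1 + w) +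
              q ^ (i + (i + 1 + w)) * qint q i) *
              (esym x 1 * esym x (2 * i + 2 + w + 1))) • phi q x 0 := fun a b => by
        rw [← hneg, qint_one]
        module
      rw [hrw]
      have hq := q_mem q x
      refine add_mem (add_mem (add_mem (add_mem ?_ ?_) ?_) ?_) ?_
      · exact smul_mem_cone q x (qint_mem q x _) hS
      · exact smul_mem_cone q x (mul_mem (qpow_mem q x _) (qint_mem q x _)) hT
      · exact phi_mem q x (mul_mem (mul_mem (qint_mem q x _)
          (mul_mem (mul_mem hq (qint_mem q x _)) (e_mem q x _))) (one_add_q_mem q x)) _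
      · exact phi_mem q x (mul_mem (mul_mem (mul_mem (qpow_mem q x _) (qint_mem q x _))
          (mul_mem (qint_mem q x _) (e_mem q x _))) (one_add_q_mem q x)) _
      · exact phi_mem q x (mul_mem (mul_mem (mul_mem (qpow_mem q x _) (qint_mem q x _))
          (add_mem (mul_mem (qint_mem q x _) (qint_mem q x _))
            (mul_mem (qpow_mem q x _) (qint_mem q x _))))
          (mul_mem (e_mem q x _) (e_mem q x _))) _
    have hrest := key
      ((∑ r ∈ range i, (q ^ (r + 1 + 1) * qint q (i + 1 + 1 - (r + 1 + 1)) *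
          esym x (r + 1 + 1)) •
        ((1 + q) • phi q x (2 * i + 2 + w + 1 - (r + 1 + 1) + 1) +
          ((qint q (2 * i + 2 + w + 1 - (r + 1 + 1) + 1) - 1 - q) *
            esym x (2 * i + 2 + w + 1 - (r + 1 + 1) + 1)) • phi q x 0)) +
        qint q (i + 1 + 1) • ((1 + q) • phi q x (2 * i + w + 1 + 3) +
          ((qint q (2 * i + w + 1 + 3) - 1 - q) * esym x (2 * i + w + 1 + 3)) • phi q x 0))
      (∑ a ∈ range i, (qint q (i + 1 - (a + 1)) * esym x (2 * i + 2 + w + 1 - (a + 1))) •
        ((1 + q) • phi q x (a + 1 + 1) +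
          ((qint q (a + 1 + 1) - 1 - q) * esym x (a + 1 + 1)) • phi q x 0))
      (add_mem (sum_mem fun r hr => by
          rw [mem_range] at hr
          exact smul_mem_cone q x
            (mul_mem (mul_mem (qpow_mem q x _) (qint_mem q x _)) (e_mem q x _))
            (hmain' _ (by omega)))
        (smul_mem_cone q x (qint_mem q x _) (hmain _)))
      (sum_mem fun a _ => smul_mem_cone q x (mul_mem (qint_mem q x _) (e_mem q x _))
        (hmain' _ (by omega)))
    convert hrest using 1
    module

/-- `P P U(m,j)` is positive. -/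
theorem opP_opP_uS_mem {m j : ℕ} (hj : 1 ≤ j) (hm : 2 * j ≤ m) :
    opP q x (opP q x (uS q x m j)) ∈ C2 q x := by
  obtain ⟨i, rfl⟩ : ∃ i, j = i + 1 := ⟨j - 1, by omega⟩
  obtain ⟨w, rfl⟩ : ∃ w, m = 2 * i + 2 + w := ⟨m - (2 * i + 2), by omega⟩
  set m := 2 * i + 2 + w with hmdef
  have hU : opQ q x (uS q x m (i + 1)) =
      uS q x (m + 2) (i + 1 + 1) - gam q x (m + 2) (i + 1 + 1) := by
    rw [uS_succ q x (m + 2) (i + 1), Nat.add_sub_cancel, add_sub_cancel_right]
  rw [opP_opP q x (fixed_uS q x _ _), hU, opD_uS q x _ _ (by omega) (by omega), dU, xS, yS, gam,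
    show m - (i + 1) = i + 1 + w by omega]
  simp only [map_add, map_smul, map_sum]
  have htop : uS q x (m + 2) (i + 1 + 1) ∈ C2 q x := by
    simpa using uS_mem q x (one_mem (posS q x)) (show 1 ≤ i + 1 + 1 by omega)
      (show 2 * (i + 1 + 1) ≤ m + 2 by omega)
  have hsplit : ∑ t ∈ range (i + 1 + 1), (qint q (i + 1 + 1 - t) * esym x (m + 2 - t)) •
      gAt q x t =
      (∑ s ∈ range (i + 1), (qint q (i + 1 - s) * esym x (m + 1 - s)) • gAt q x (s + 1)) +
        (qint q (i + 1 + 1) * esym x (m + 2)) • F2 q x 0 := by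
    rw [sum_range_succ' _ (i + 1), gAt_zero]
    congr 1
    exact sum_congr rfl fun s _ => by
      rw [Nat.add_sub_add_right, show m + 2 - (s + 1) = m + 1 - s by omega]
  rw [hsplit]
  -- the cover of each `G`-term by the matching `Φ`-term
  set CX : ℕ → V2 R N := fun r => qint q (i + 1) • opPhi q x (phi q x (m + 1 - r)) -
    gAt q x (m + 2 - r) with hCX
  set CY : ℕ → V2 R N := fun s => qint q (i + 1 + w) • opPhi q x (phi q x s) -
    gAt q x (s + 1) with hCY
  have hgoal : uS q x (m + 2) (i + 1 + 1) +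
      ((∑ r ∈ range (i + 1 + 1),
          (q ^ r * qint q (i + 1 + 1 - r) * esym x r) • CX r) +
        q ^ (i + 1 + 1) •
          (∑ s ∈ range (i + 1), (qint q (i + 1 - s) * esym x (m + 1 - s)) • CY s) -
        (q ^ (i + 1 + 1) * qint q (i + 1 + 1) * esym x (m + 2)) • F2 q x 0) ∈ C2 q x := by
    refine add_mem htop ?_
    have hX : ∀ r ≤ i + 1, CX r =
        (q * qint q i) • mAt q x (m + 2 - r) +
          (q * qint q (i + 1)) • opA q x (phi q x (m + 2 - r)) +
          (q ^ 2 * (q ^ i + q * qint q (i + 1) * qint q (m - 1 - r)) * esym x (m + 2 - r)) •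
            F2 q x 0 := fun r hr => by
      simp only [hCX]
      rw [show m + 1 - r = (m - 1 - r) + 2 by omega, show m + 2 - r = (m - 1 - r) + 3 by omega]
      exact cover q x i (m - 1 - r)
    have hY : ∀ s, CY (s + 2) =
        (q * qint q (i + w)) • mAt q x (s + 3) +
          (q * qint q (i + 1 + w)) • opA q x (phi q x (s + 3)) +
          (q ^ 2 * (q ^ (i + w) + q * qint q (i + 1 + w) * qint q s) * esym x (s + 3)) •
            F2 q x 0 := fun s => by
      simp only [hCY]
      rw [show i + 1 + w = (i + w) + 1 by omega]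
      exact cover q x (i + w) s
    have hY0 : CY 0 = (q * qint q (i + w)) • F2 q x 1 +
        (q * qint q (i + 1 + w)) • opA q x (phi q x 1) -
        (q * qint q (i + 1 + w) * esym x 1) • F2 q x 0 := by
      simp only [hCY]
      rw [opPhi_phi, gAt_one, qint_zero, show i + 1 + w = (i + w) + 1 by omega, qint_succ']
      module
    have hY1 : CY 1 = (q * qint q (i + w)) • mAt q x 2 +
        (q * qint q (i + 1 + w)) • opA q x (phi q x 2) -
        (q ^ 2 * qint q (i + w) * esym x 2) • F2 q x 0 := by
      simp only [hCY]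
      rw [opPhi_phi, mAt_eq, qint_one, show i + 1 + w = (i + w) + 1 by omega, qint_succ']
      module
    have hq := q_mem q x
    have hXmem : ∀ r ≤ i + 1, CX r ∈ C2 q x := fun r hr => by
      rw [hX r hr]
      refine add_mem (add_mem ?_ (Aphi_mem q x (mul_mem hq (qint_mem q x _)) _))
        (F2_mem q x (mul_mem (mul_mem (qpow_mem q x _) (add_mem (qpow_mem q x _)
          (mul_mem (mul_mem hq (qint_mem q x _)) (qint_mem q x _)))) (e_mem q x _)) _)
      rw [show m + 2 - r = (m - r) + 2 by omega]
      exact mAt_mem q x (mul_mem hq (qint_mem q x _)) _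
    have hYmem : ∀ s, CY (s + 2) ∈ C2 q x := fun s => by
      rw [hY s]
      exact add_mem (add_mem (mAt_mem q x (mul_mem hq (qint_mem q x _)) (s + 1))
        (Aphi_mem q x (mul_mem hq (qint_mem q x _)) _))
        (F2_mem q x (mul_mem (mul_mem (qpow_mem q x _) (add_mem (qpow_mem q x _)
          (mul_mem (mul_mem hq (qint_mem q x _)) (qint_mem q x _)))) (e_mem q x _)) _)
    have hc : ∀ r s : ℕ, q ^ r * qint q s * esym x r ∈ posS q x := fun r s =>
      mul_mem (mul_mem (qpow_mem q x _) (qint_mem q x _)) (e_mem q x _)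
    rcases i with - | k
    · rw [sum_range_succ _ 1, sum_range_one, sum_range_one, hX 0 (by omega), hX 1 (by omega),
        hY0, show m + 2 - 1 = m + 1 by omega, show m - 1 - 1 = w by omega,
        show m - 1 - 0 = w + 1 by omega, show m + 1 - 0 = m + 1 by omega,
        show m + 2 - 0 = m + 2 by omega]
      simp only [zero_add, qint_one, qint_zero, pow_zero, esym_zero, show 1 + 1 - 1 = 1 by omega,
        show 1 + 1 - 0 = 2 by omega]
      have hE : (q * qint q 2) • opA q x (phi q x (m + 2)) +
          (q ^ 3 * qint q 2 * qint q (w + 1) * esym x (m + 2)) • F2 q x 0 +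
          (q ^ 2 * esym x 1) • opA q x (phi q x (m + 1)) +
          (q ^ 2 * (q * qint q w * esym x (m + 1))) • F2 q x 1 +
          (q ^ 2 * (q * qint q (1 + w) * esym x (m + 1))) • opA q x (phi q x 1) ∈ C2 q x :=
        add_mem (add_mem (add_mem (add_mem
          (Aphi_mem q x (mul_mem hq (qint_mem q x _)) _)
          (F2_mem q x (mul_mem (mul_mem (mul_mem (qpow_mem q x _) (qint_mem q x _))
            (qint_mem q x _)) (e_mem q x _)) _))
          (Aphi_mem q x (mul_mem (qpow_mem q x _) (e_mem q x _)) _))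
          (F2_mem q x (mul_mem (qpow_mem q x _)
            (mul_mem (mul_mem hq (qint_mem q x _)) (e_mem q x _))) _))
          (Aphi_mem q x (mul_mem (qpow_mem q x _)
            (mul_mem (mul_mem hq (qint_mem q x _)) (e_mem q x _))) _)
      convert hE using 1
      rw [add_comm 1 w, qint_succ' q w]
      module
    · rw [sum_range_succ' _ (k + 1 + 1), sum_range_succ' _ (k + 1), sum_range_succ' _ k,
        sum_range_succ' _ (k + 1), sum_range_succ' _ k, hY0, hY1,
        hX 0 (by omega), hX (0 + 1) (by omega), hX (0 + 1 + 1) (by omega)]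
      have hr1 : q * qint q (k + 1 + 1) *
            (q ^ 2 * (q ^ (k + 1) + q * qint q (k + 1 + 1) * qint q (2 * k + 2 + w))) -
          q ^ (k + 1 + 1 + 1) * (qint q (k + 1 + 1) * (q * qint q (k + 1 + 1 + w))) =
          q ^ 4 * qint q (k + 1 + 1) * (qint q (k + 1) * qint q (2 * k + 2 + w) +
            q ^ (k + 1 + (k + 1 + w)) * qint q (k + 1)) := by
        rw [qint_split q (show 2 * k + 2 + w = (k + 1 + w) + (k + 1) by omega),
          show k + 1 + 1 + w = (k + 1 + w) + 1 by omega, qint_succ' q (k + 1 + w),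
          qint_succ q (k + 1)]
        ring
      have hr2 : q ^ 2 * qint q (k + 1) *
            (q ^ 2 * (q ^ (k + 1) + q * qint q (k + 1 + 1) * qint q (2 * k + 1 + w))) -
          q ^ (k + 1 + 1 + 1) * (qint q (k + 1) * (q ^ 2 * qint q (k + 1 + w))) =
          q ^ 5 * qint q (k + 1) * (qint q (k + 1) * qint q (2 * k + 1 + w) +
            q ^ (k + 1 + (k + w)) * qint q (k + 1)) := by
        rw [qint_split q (show 2 * k + 1 + w = (k + w) + (k + 1) by omega),
          show k + 1 + w = (k + w) + 1 by omega, qint_succ' q (k + w),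
          qint_succ q (k + 1)]
        ring
      simp only [zero_add, esym_zero, pow_zero, pow_one, Nat.sub_zero, show 1 + 1 = 2 from rfl,
        show k + 1 + 1 + 1 - 1 = k + 1 + 1 by omega, show k + 1 + 1 + 1 - 2 = k + 1 by omega,
        show k + 1 + 1 - 1 = k + 1 by omega, show m + 2 - 1 = m + 1 by omega,
        show m + 2 - 2 = m by omega, show m + 1 - 1 = m by omega,
        show m - 1 - 1 = 2 * k + 2 + w by omega, show m - 1 - 2 = 2 * k + 1 + w by omega]
      have hE : qint q (k + 1 + 1 + 1) • ((q * qint q (k + 1)) • mAt q x (m + 2) +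
            (q * qint q (k + 1 + 1)) • opA q x (phi q x (m + 2)) +
            (q ^ 3 * qint q (k + 1 + 1) * qint q (m - 1) * esym x (m + 2)) • F2 q x 0) +
          (q * qint q (k + 1 + 1) * esym x 1) • ((q * qint q (k + 1)) • mAt q x (m + 1) +
            (q * qint q (k + 1 + 1)) • opA q x (phi q x (m + 1))) +
          (q ^ 4 * qint q (k + 1 + 1) * (qint q (k + 1) * qint q (2 * k + 2 + w) +
            q ^ (k + 1 + (k + 1 + w)) * qint q (k + 1)) * (esym x 1 * esym x (m + 1))) •
              F2 q x 0 +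
          (q ^ 2 * qint q (k + 1) * esym x 2) • ((q * qint q (k + 1)) • mAt q x m +
            (q * qint q (k + 1 + 1)) • opA q x (phi q x m)) +
          (q ^ 5 * qint q (k + 1) * (qint q (k + 1) * qint q (2 * k + 1 + w) +
            q ^ (k + 1 + (k + w)) * qint q (k + 1)) * (esym x 2 * esym x m)) • F2 q x 0 +
          (∑ r ∈ range k, (q ^ (r + 1 + 1 + 1) * qint q (k + 1 + 1 + 1 - (r + 1 + 1 + 1)) *
            esym x (r + 1 + 1 + 1)) • CX (r + 1 + 1 + 1)) +
          q ^ (k + 1 + 1 + 1) • ((∑ s ∈ range k, (qint q (k + 1 + 1 - (s + 1 + 1)) *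
              esym x (m + 1 - (s + 1 + 1))) • CY (s + 1 + 1)) +
            (qint q (k + 1 + 1) * esym x (m + 1)) • ((q * qint q (k + 1 + w)) • F2 q x 1 +
              (q * qint q (k + 1 + 1 + w)) • opA q x (phi q x 1)) +
            (qint q (k + 1) * esym x m) • ((q * qint q (k + 1 + w)) • mAt q x 2 +
              (q * qint q (k + 1 + 1 + w)) • opA q x (phi q x 2))) ∈ C2 q x := by
        have hqq : ∀ a : ℕ, q * qint q a ∈ posS q x := fun a => mul_mem hq (qint_mem q x _)
        refine add_mem (add_mem (add_mem (add_mem (add_mem (add_mem ?_ ?_) ?_) ?_) ?_) ?_) ?_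
        · refine smul_mem_cone q x (qint_mem q x _) (add_mem (add_mem ?_ ?_) ?_)
          · exact mAt_mem q x (hqq _) m
          · exact Aphi_mem q x (hqq _) _
          · exact F2_mem q x (mul_mem (mul_mem (mul_mem (qpow_mem q x _) (qint_mem q x _))
              (qint_mem q x _)) (e_mem q x _)) _
        · refine smul_mem_cone q x (mul_mem (hqq _) (e_mem q x _))
            (add_mem ?_ (Aphi_mem q x (hqq _) _))
          rw [show m + 1 = (m - 1) + 2 by omega]
          exact mAt_mem q x (hqq _) _
        · exact F2_mem q x (mul_mem (mul_mem (mul_mem (qpow_mem q x _) (qint_mem q x _))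
            (add_mem (mul_mem (qint_mem q x _) (qint_mem q x _))
              (mul_mem (qpow_mem q x _) (qint_mem q x _))))
            (mul_mem (e_mem q x _) (e_mem q x _))) _
        · refine smul_mem_cone q x (mul_mem (mul_mem (qpow_mem q x _) (qint_mem q x _))
            (e_mem q x _)) (add_mem ?_ (Aphi_mem q x (hqq _) _))
          rw [show m = (m - 2) + 2 by omega]
          exact mAt_mem q x (hqq _) _
        · exact F2_mem q x (mul_mem (mul_mem (mul_mem (qpow_mem q x _) (qint_mem q x _))
            (add_mem (mul_mem (qint_mem q x _) (qint_mem q x _))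
              (mul_mem (qpow_mem q x _) (qint_mem q x _))))
            (mul_mem (e_mem q x _) (e_mem q x _))) _
        · exact sum_mem fun r hr =>
            smul_mem_cone q x (hc _ _) (hXmem _ (by rw [mem_range] at hr; omega))
        · refine smul_mem_cone q x (qpow_mem q x _) (add_mem (add_mem ?_ ?_) ?_)
          · exact sum_mem fun s _ =>
              smul_mem_cone q x (mul_mem (qint_mem q x _) (e_mem q x _)) (hYmem s)
          · exact smul_mem_cone q x (mul_mem (qint_mem q x _) (e_mem q x _))
              (add_mem (F2_mem q x (hqq _) _) (Aphi_mem q x (hqq _) _))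
          · exact smul_mem_cone q x (mul_mem (qint_mem q x _) (e_mem q x _))
              (add_mem (mAt_mem q x (hqq _) 0) (Aphi_mem q x (hqq _) _))
      convert hE using 1
      rw [← hr1, ← hr2]
      module
  convert hgoal using 1
  simp only [hCX, hCY, smul_sub, sum_sub_distrib, smul_smul]
  simp only [smul_sum, smul_smul, smul_add]
  have e1 : ∀ r, qint q (i + 1) * (q ^ r * qint q (i + 1 + 1 - r) * esym x r) =
      q ^ r * qint q (i + 1 + 1 - r) * esym x r * qint q (i + 1) := fun r => mul_comm _ _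
  have e2 : ∀ s, q ^ (i + 1 + 1) * qint q (i + 1 + w) *
      (qint q (i + 1 - s) * esym x (m + 1 - s)) =
      q ^ (i + 1 + 1) * (qint q (i + 1 - s) * esym x (m + 1 - s) * qint q (i + 1 + w)) :=
    fun s => by ring
  simp only [e1, e2]
  module

theorem opP_gen {g : V2 R N} (hg : g ∈ gen2 q x) : opP q x g ∈ C2 q x := by
  rcases hg with (⟨a, rfl⟩ | ⟨a, rfl⟩) | ⟨m, j, hj, hm, rfl | rfl⟩
  · rw [opP_F2]
    exact add_mem (by simpa using F2_mem q x (one_mem (posS q x)) (a + 1))
      (Aphi_mem q x (mul_mem (q_mem q x) (qint_mem q x _)) _)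
  · simp only
    rw [opP_Aphi]
    rcases a with - | a
    · rw [gAt_one, qint_zero]
      simpa using F2_mem q x (one_mem (posS q x)) 1
    · have h := add_mem (mAt_mem q x (one_mem (posS q x)) a)
        (F2_mem q x (mul_mem (mul_mem (qpow_mem q x 2) (qint_mem q x a))
          (e_mem q x (a + 2))) 0)
      convert h using 1
      rw [qint_succ', mAt_eq]
      module
  · simpa [C2] using gen_mem q x (one_mem (posS q x))
      (show opP q x (uS q x m j) ∈ gen2 q x from Or.inr ⟨m, j, hj, hm, Or.inr rfl⟩)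
  · exact opP_opP_uS_mem q x hj hm

/-- All states stay positive. -/
theorem st_mem (e : ℕ → ℕ) (n : ℕ) :
    (st q x e n).1 ∈ posS q x ∧ (st q x e n).2.1 ∈ C1 q x ∧ (st q x e n).2.2 ∈ C2 q x := by
  induction n with
  | zero => exact ⟨one_mem _, zero_mem _, zero_mem _⟩
  | succ n ih =>
    obtain ⟨h0, h1, h2⟩ := ih
    rw [st]
    by_cases he : e n = 0
    · have hA : A0 x (st q x e n).1 ∈ C1 q x := by
        have : A0 x (st q x e n).1 = (st q x e n).1 • phi q x 0 := by
          funext c
          simp [A0, phi_zero_apply, mul_comm]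
        rw [this]
        exact phi_mem q x h0 0
      simp only [step, he, if_true]
      exact ⟨opD1_mem q x hA, hA, zero_mem _⟩
    · have hG : (if e n = 1 then A1 q x (st q x e n).2.1 else P2 q x (st q x e n).2.2) ∈
          C2 q x := by
        split_ifs
        · exact opA_mem q x h1
        · rw [P2_eq]
          exact map_cone q x (opP q x) (fun g hg => opP_gen q x hg) h2
      have hD := map_cone q x opD (fun g hg => opD_gen q x hg) hG
      simp only [step, he, if_false]
      exact ⟨opD1_mem q x hD, hD, hG⟩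

end Vale.Agent.P066.Colour
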