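import Vale.Agent.P066.Colour.UDefs

/-!
The formula for `D U(m,j)`.
-/

namespace Vale.Agent.P066.Colour

open Finset

variable {R : Type*} [CommRing R] {N : ℕ} (q : R) (x : Fin N → R)

/-- `Σ_{r≤j} q^r [j+1-r] e_r φ_{n-r}`. -/
def xS (n j : ℕ) : V1 R N :=
  ∑ r ∈ range (j + 1), (q ^ r * qint q (j + 1 - r) * esym x r) • phi q x (n - r)

/-- `Σ_{a<j} [j-a] e_{n-a} φ_a`. -/
def yS (n j : ℕ) : V1 R N :=
  ∑ a ∈ range j, (qint q (j - a) * esym x (n - a)) • phi q x a

/-- The value of `D U(m,j)`. -/
def dU (m j : ℕ) : V1 R N :=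
  qint q j • xS q x (m + 1) j + (q ^ (j + 1) * qint q (m - j)) • yS q x (m + 1) j

/-- `Σ_{r≤j} q^r [j+1-r] e_r e_{n-r}`. -/
def xe (n j : ℕ) : R :=
  ∑ r ∈ range (j + 1), q ^ r * qint q (j + 1 - r) * esym x r * esym x (n - r)

/-- `Σ_{a<j} [j-a] e_{n-a} e_a`. -/
def pe (n j : ℕ) : R := ∑ a ∈ range j, qint q (j - a) * esym x (n - a) * esym x a

theorem opY_xS {n j : ℕ} (h : j ≤ n) :
    opY q x (xS q x n j) = xS q x (n + 1) j - xe q x (n + 1) j • phi q x 0 := by
  simp only [xS, xe, map_sum, map_smul, sum_smul, ← sum_sub_distrib, opY_phi]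
  refine sum_congr rfl fun r hr => ?_
  rw [mem_range] at hr
  rw [show n - r + 1 = n + 1 - r by omega]
  module

theorem opY_yS (n j : ℕ) :
    opY q x (yS q x n j) = yS q x (n + 1) (j + 1) - pe q x (n + 1) (j + 1) • phi q x 0 := by
  simp only [yS, pe, map_sum, map_smul, sum_range_succ' _ j, esym_zero, add_smul, sum_smul,
    opY_phi]
  have h : ∀ a ∈ range j,
      (qint q (j - a) * esym x (n - a)) • (phi q x (a + 1) - esym x (a + 1) • phi q x 0) =
        (qint q (j + 1 - (a + 1)) * esym x (n + 1 - (a + 1))) • phi q x (a + 1) -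
        (qint q (j + 1 - (a + 1)) * esym x (n + 1 - (a + 1)) * esym x (a + 1)) • phi q x 0 :=
    fun a _ => by rw [Nat.add_sub_add_right, Nat.add_sub_add_right]; module
  rw [sum_congr rfl h, sum_sub_distrib]
  module

/-- The scalar identity for the coefficient of `φ_1`. -/
theorem scalar_phi1 {m j : ℕ} (hjm : j ≤ m) :
    q * qint q j * xe q x (m + 2) j + q ^ (j + 2) * qint q (m - j) * pe q x (m + 2) (j + 1) +
      q ^ (j + 1) * qint q (j + 1) * esym x (m + 2) =
    q * (∑ r ∈ range (j + 1),
        q ^ r * qint q (j + 1 - r) * esym x r * qint q (m + 1 - r) * esym x (m + 2 - r)) +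
      q ^ (j + 2) * ∑ s ∈ range j,
        qint q (j - s) * esym x (m + 1 - s) * qint q s * esym x (s + 1) := by
  obtain ⟨w, rfl⟩ := Nat.exists_eq_add_of_le hjm
  rw [show j + w - j = w by omega, xe, pe, sum_range_succ' _ j, sum_range_succ' _ j,
    sum_range_succ' _ j]
  have hN : ∀ s, j + w + 2 - (s + 1) = j + w + 1 - s := fun s => by omega
  simp only [esym_zero, Nat.sub_zero, pow_zero, Nat.add_sub_add_right, one_mul, mul_one, hN]
  have h0 : qint q (j + w + 1) = qint q j + q ^ j + q ^ (j + 1) * qint q w := by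
    rw [qint_split q (show j + w + 1 = (j + 1) + w by omega), qint_succ]
  rw [h0]
  have hsum : q * qint q j *
      (∑ s ∈ range j, q ^ (s + 1) * qint q (j - s) * esym x (s + 1) * esym x (j + w + 1 - s)) +
      q ^ (j + 2) * qint q w *
      (∑ s ∈ range j, qint q (j - s) * esym x (j + w + 1 - s) * esym x (s + 1)) =
      q * (∑ s ∈ range j, q ^ (s + 1) * qint q (j - s) * esym x (s + 1) * qint q (j + w - s) *
        esym x (j + w + 1 - s)) +
      q ^ (j + 2) *
        ∑ s ∈ range j, qint q (j - s) * esym x (j + w + 1 - s) * qint q s * esym x (s + 1) := by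
    simp only [mul_sum, ← sum_add_distrib]
    refine sum_congr rfl fun s hs => ?_
    rw [mem_range] at hs
    obtain ⟨d, rfl⟩ : ∃ d, j = s + 1 + d := ⟨j - s - 1, by omega⟩
    rw [show s + 1 + d - s = d + 1 by omega,
      qint_split q (show s + 1 + d + w - s = (d + 1) + w by omega),
      qint_split q (show s + 1 + d = (d + 1) + s by omega)]
    ring
  linear_combination hsum

/-- The scalar identity for the coefficient of `φ_0`. -/
theorem scalar_phi0 {m j : ℕ} (hjm : j ≤ m) :
    qint q (j + 1) * xe q x (m + 3) (j + 1) +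
      q ^ (j + 2) * qint q (m - j + 1) * pe q x (m + 3) (j + 1) =
    (∑ r ∈ range (j + 1),
        q ^ r * qint q (j + 1 - r) * esym x r * qint q (m + 3 - r) * esym x (m + 3 - r)) +
      q ^ (j + 1) * (∑ s ∈ range j,
        qint q (j - s) * esym x (m + 1 - s) * qint q (s + 2) * esym x (s + 2)) +
      q ^ (j + 1) * qint q (j + 1) * esym x (m + 2) * esym x 1 := by
  obtain ⟨w, rfl⟩ := Nat.exists_eq_add_of_le hjm
  rw [show j + w - j = w by omega]
  have hcorr : q ^ (j + 1) * (∑ s ∈ range j,
        qint q (j - s) * esym x (j + w + 1 - s) * qint q (s + 2) * esym x (s + 2)) +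
      q ^ (j + 1) * qint q (j + 1) * esym x (j + w + 2) * esym x 1 =
      q ^ (j + 1) * ∑ u ∈ range (j + 1),
        qint q (j + 1 - u) * esym x (j + w + 2 - u) * qint q (u + 1) * esym x (u + 1) := by
    rw [sum_range_succ' _ j]
    have hN : ∀ s, j + w + 2 - (s + 1) = j + w + 1 - s := fun s => by omega
    simp only [Nat.add_sub_add_right, Nat.sub_zero, zero_add, qint_one, hN,
      show ∀ s : ℕ, s + 1 + 1 = s + 2 from fun _ => rfl]
    ring
  have hA : (∑ r ∈ range (j + 1), q ^ r * qint q (j + 1 - r) * esym x r *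
      qint q (j + w + 3 - r) * esym x (j + w + 3 - r)) =
      ∑ r ∈ range (j + 1 + 1), q ^ r * qint q (j + 1 - r) * esym x r *
        qint q (j + w + 3 - r) * esym x (j + w + 3 - r) := by
    rw [sum_range_succ _ (j + 1), Nat.sub_self, qint_zero]
    ring
  have hP : pe q x (j + w + 3) (j + 1) =
      ∑ a ∈ range (j + 1 + 1), qint q (j + 1 - a) * esym x (j + w + 3 - a) * esym x a := by
    rw [pe, sum_range_succ _ (j + 1), Nat.sub_self, qint_zero]
    ring
  rw [hA, hP, xe, sum_range_succ' _ (j + 1), sum_range_succ' _ (j + 1),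
    sum_range_succ' _ (j + 1)]
  have hN : ∀ u, j + w + 3 - (u + 1) = j + w + 2 - u := fun u => by omega
  simp only [esym_zero, Nat.sub_zero, pow_zero, Nat.add_sub_add_right, one_mul, mul_one, hN]
  have h0 : qint q (j + w + 3) = qint q (j + 2) + q ^ (j + 2) * qint q (w + 1) :=
    qint_split q (by omega)
  rw [h0]
  have hsum : qint q (j + 1) * (∑ u ∈ range (j + 1),
        q ^ (u + 1) * qint q (j + 1 - u) * esym x (u + 1) * esym x (j + w + 2 - u)) +
      q ^ (j + 2) * qint q (w + 1) *
        (∑ u ∈ range (j + 1), qint q (j - u) * esym x (j + w + 2 - u) * esym x (u + 1)) =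
      (∑ u ∈ range (j + 1), q ^ (u + 1) * qint q (j - u) * esym x (u + 1) *
        qint q (j + w + 2 - u) * esym x (j + w + 2 - u)) +
      q ^ (j + 1) * ∑ u ∈ range (j + 1),
        qint q (j + 1 - u) * esym x (j + w + 2 - u) * qint q (u + 1) * esym x (u + 1) := by
    simp only [mul_sum, ← sum_add_distrib]
    refine sum_congr rfl fun u hu => ?_
    rw [mem_range] at hu
    obtain ⟨d, rfl⟩ : ∃ d, j = u + d := ⟨j - u, by omega⟩
    rw [show u + d - u = d by omega, show u + d + 1 - u = d + 1 by omega,
      qint_split q (show u + d + w + 2 - u = (d + 1) + (w + 1) by omega),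
      qint_split q (show u + d + 1 = d + (u + 1) by omega)]
    ring
  linear_combination hsum - hcorr

/-- `D Γ` in terms of `y D Ψ`. -/
theorem opD_gam {m j : ℕ} (hjm : j ≤ m) :
    opD (gam q x (m + 2) (j + 1)) = opY q x (opD (psi q x (m + 1) j)) +
      ((∑ r ∈ range (j + 1),
          q ^ r * qint q (j + 1 - r) * esym x r * qint q (m + 3 - r) * esym x (m + 3 - r)) +
        q ^ (j + 1) * (∑ s ∈ range j,
          qint q (j - s) * esym x (m + 1 - s) * qint q (s + 2) * esym x (s + 2)) +
        esym x 1 * (q * (∑ r ∈ range (j + 1),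
          q ^ r * qint q (j + 1 - r) * esym x r * qint q (m + 1 - r) * esym x (m + 2 - r)) +
        q ^ (j + 2) * ∑ s ∈ range j,
          qint q (j - s) * esym x (m + 1 - s) * qint q s * esym x (s + 1))) • phi q x 0 +
      (q ^ (j + 1) * qint q (j + 1) * esym x (m + 2) -
        (q * (∑ r ∈ range (j + 1),
          q ^ r * qint q (j + 1 - r) * esym x r * qint q (m + 1 - r) * esym x (m + 2 - r)) +
        q ^ (j + 2) * ∑ s ∈ range j,
          qint q (j - s) * esym x (m + 1 - s) * qint q s * esym x (s + 1))) • phi q x 1 := by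
  have h1 : opD (∑ r ∈ range (j + 1),
      (q ^ r * qint q (j + 1 - r) * esym x r) • gAt q x (m + 2 - r)) =
      opY q x (opD (∑ r ∈ range (j + 1),
        (q ^ r * qint q (j + 1 - r) * esym x r) • mAt q x (m + 1 - r))) +
      ((∑ r ∈ range (j + 1),
          q ^ r * qint q (j + 1 - r) * esym x r * qint q (m + 3 - r) * esym x (m + 3 - r)) +
        esym x 1 * q * (∑ r ∈ range (j + 1),
          q ^ r * qint q (j + 1 - r) * esym x r * qint q (m + 1 - r) * esym x (m + 2 - r))) •
        phi q x 0 -
      (q * ∑ r ∈ range (j + 1),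
          q ^ r * qint q (j + 1 - r) * esym x r * qint q (m + 1 - r) * esym x (m + 2 - r)) •
        phi q x 1 := by
    simp only [map_sum, map_smul, mul_sum, add_smul, sum_smul, ← sum_add_distrib,
      ← sum_sub_distrib]
    refine sum_congr rfl fun r hr => ?_
    rw [mem_range] at hr
    rw [show m + 2 - r = (m + 1 - r) + 1 by omega, opD_gAt,
      show m + 1 - r + 2 = m + 3 - r by omega]
    module
  have h2 : opD (∑ t ∈ range (j + 1), (qint q (j + 1 - t) * esym x (m + 2 - t)) • gAt q x t) =
      opY q x (opD (∑ s ∈ range j, (qint q (j - s) * esym x (m + 1 - s)) • mAt q x s)) +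
      ((∑ s ∈ range j, qint q (j - s) * esym x (m + 1 - s) * qint q (s + 2) * esym x (s + 2)) +
        esym x 1 * q * (∑ s ∈ range j,
          qint q (j - s) * esym x (m + 1 - s) * qint q s * esym x (s + 1))) • phi q x 0 -
      (q * ∑ s ∈ range j,
        qint q (j - s) * esym x (m + 1 - s) * qint q s * esym x (s + 1)) • phi q x 1 +
      (qint q (j + 1) * esym x (m + 2)) • phi q x 1 := by
    rw [sum_range_succ' _ j, map_add, map_smul, opD_gAt_zero]
    simp only [Nat.sub_zero, Nat.add_sub_add_right, map_sum, map_smul, mul_sum, add_smul,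
      sum_smul, ← sum_add_distrib, ← sum_sub_distrib]
    congr 1
    refine sum_congr rfl fun s hs => ?_
    rw [opD_gAt, show m + 2 - (s + 1) = m + 1 - s by omega]
    module
  rw [gam, psi, map_add opD, map_smul, h1, h2, map_add opD, map_smul, map_add, map_smul]
  module

/-- The induction step for `D U`, away from the boundary. -/
theorem dU_step {m j : ℕ} (hjm : j ≤ m) (hm : 2 * j ≤ m + 1)
    (h0 : opD (uS q x m j) = dU q x m j) (h1 : opD (uS q x (m + 1) j) = dU q x (m + 1) j)
    (h2 : opD (uS q x (m + 1) (j + 1)) = dU q x (m + 1) (j + 1)) :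
    opD (uS q x (m + 2) (j + 1)) = dU q x (m + 2) (j + 1) := by
  have hE := congrArg opD (opE_uS q x j m hm)
  rw [map_add opD, map_add opD, map_smul, h1, h2] at hE
  rw [uS_succ, show m + 2 - 2 = m by omega, map_add, opD_opQ q x (fixed_uS q x j m), h0,
    eq_sub_of_add_eq hE, opD_gam q x hjm]
  have hinner : q • dU q x (m + 1) j + dU q x (m + 1) (j + 1) - q • opY q x (dU q x m j) =
      qint q (j + 1) • xS q x (m + 2) (j + 1) +
        (q ^ (j + 2) * qint q (m - j + 1)) • yS q x (m + 2) j +
        (q * qint q j * xe q x (m + 2) j +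
          q ^ (j + 2) * qint q (m - j) * pe q x (m + 2) (j + 1)) • phi q x 0 := by
    simp only [dU, map_add, map_smul, opY_xS q x (show j ≤ m + 1 by omega), opY_yS]
    rw [show m + 1 - j = m - j + 1 by omega, show m + 1 - (j + 1) = m - j by omega]
    module
  have hy : opY q x (q • dU q x (m + 1) j + dU q x (m + 1) (j + 1) -
      q • opY q x (dU q x m j)) = _ := congrArg (opY q x) hinner
  simp only [map_add, map_sub, map_smul, opY_xS q x (show j + 1 ≤ m + 2 by omega), opY_yS,
    opY_phi] at hy
  simp only [map_add, map_sub, map_smul]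
  conv_rhs => rw [dU, show m + 2 - (j + 1) = m - j + 1 by omega]
  have e1 := congrArg (fun a => a • phi q x 1) (scalar_phi1 q x hjm)
  have e0 := congrArg (fun a => a • phi q x 0) (scalar_phi1 q x hjm)
  have e2 := congrArg (fun a => a • phi q x 0) (scalar_phi0 q x hjm)
  simp only [add_smul] at e1 e0 e2
  linear_combination (norm := module) hy + e1 - esym x 1 • e0 - e2

theorem opD_sumF (n : ℕ) : opD (sumF q x n) =
    ∑ r ∈ range (n + 1), (q ^ r * esym x r * qint q (n + 1 - r)) • phi q x (n + 1 - r) := by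
  simp only [sumF, map_sum, map_smul, opD_F2]
  refine sum_congr rfl fun r hr => ?_
  rw [mem_range] at hr
  rw [show n - r + 1 = n + 1 - r by omega]
  module

/-- The identity behind the boundary case. -/
theorem dU_boundary (i : ℕ) :
    dU q x (2 * (i + 1)) (i + 2) = q ^ 2 • dU q x (2 * (i + 1)) i +
      (1 + q) • opD (sumF q x (2 * (i + 1))) := by
  set n := 2 * (i + 1) + 1 with hn
  have hX : qint q (i + 2) • xS q x n (i + 2) =
      (q ^ 2 * qint q i) • xS q x n i +
        (1 + q) • (∑ r ∈ range (i + 2), (q ^ r * esym x r * qint q (n - r)) • phi q x (n - r)) +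
        (q ^ (i + 2) * qint q (i + 2) * esym x (i + 2)) • phi q x (i + 1) := by
    rw [xS, xS, sum_range_succ _ (i + 2), show i + 2 + 1 - (i + 2) = 1 by omega, qint_one,
      show n - (i + 2) = i + 1 by omega, sum_range_succ _ (i + 1), sum_range_succ _ (i + 1)]
    simp only [show i + 2 + 1 - (i + 1) = 2 by omega, show n - (i + 1) = i + 2 by omega,
      smul_add, smul_sum]
    have h : ∀ r ∈ range (i + 1),
        qint q (i + 2) • ((q ^ r * qint q (i + 2 + 1 - r) * esym x r) • phi q x (n - r)) =
        (q ^ 2 * qint q i) • ((q ^ r * qint q (i + 1 - r) * esym x r) • phi q x (n - r)) +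
          (1 + q) • ((q ^ r * esym x r * qint q (n - r)) • phi q x (n - r)) := fun r hr => by
      rw [mem_range] at hr
      obtain ⟨d, hd⟩ : ∃ d, i + 1 - r = d := ⟨_, rfl⟩
      rw [show i + 2 + 1 - r = d + 1 + 1 by omega, hd,
        qint_split q (show n - r = (d + 1 + 1) + i by omega),
        qint_split q (show i + 2 = 2 + i by omega), qint_two, qint_succ, qint_succ]
      module
    rw [sum_congr rfl h, sum_add_distrib, qint_two, qint_succ' q (i + 1), qint_succ' q i]
    module
  have hY : (q ^ (i + 3) * qint q i) • yS q x n (i + 2) +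
      (q ^ (i + 2) * qint q (i + 2) * esym x (i + 2)) • phi q x (i + 1) =
      (q ^ 2 * (q ^ (i + 1) * qint q (i + 2))) • yS q x n i +
        (1 + q) • ∑ a ∈ range (i + 2), (q ^ (n - a) * esym x (n - a) * qint q a) • phi q x a := by
    have hlow : yS q x n i =
        ∑ a ∈ range (i + 1), (qint q (i - a) * esym x (n - a)) • phi q x a := by
      rw [yS, sum_range_succ _ i, Nat.sub_self, qint_zero]; module
    rw [hlow, yS, sum_range_succ _ (i + 1), sum_range_succ _ (i + 1),
      show i + 2 - (i + 1) = 1 by omega, qint_one, show n - (i + 1) = i + 2 by omega]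
    simp only [smul_add, smul_sum]
    have h : ∀ a ∈ range (i + 1),
        (q ^ (i + 3) * qint q i) • ((qint q (i + 2 - a) * esym x (n - a)) • phi q x a) =
        (q ^ 2 * (q ^ (i + 1) * qint q (i + 2))) •
            ((qint q (i - a) * esym x (n - a)) • phi q x a) +
          (1 + q) • ((q ^ (n - a) * esym x (n - a) * qint q a) • phi q x a) := fun a ha => by
      rw [mem_range] at ha
      obtain ⟨d, rfl⟩ : ∃ d, i = a + d := ⟨i - a, by omega⟩
      rw [show a + d + 2 - a = d + 1 + 1 by omega, show a + d - a = d by omega,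
        show n - a = a + d + 3 + d by omega, show a + d + 2 = (a + d) + 1 + 1 from rfl]
      simp only [qint_succ']
      rw [qint_split q (show a + d = d + a by omega)]
      module
    rw [sum_congr rfl h, sum_add_distrib, qint_succ' q (i + 1), qint_succ' q i]
    module
  have hSF : opD (sumF q x (2 * (i + 1))) =
      (∑ r ∈ range (i + 2), (q ^ r * esym x r * qint q (n - r)) • phi q x (n - r)) +
        ∑ a ∈ range (i + 2), (q ^ (n - a) * esym x (n - a) * qint q a) • phi q x a := by
    rw [opD_sumF, ← hn, show n = (i + 2) + (i + 1) by omega, sum_range_add]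
    congr 1
    rw [sum_range_succ' _ (i + 1), qint_zero]
    simp only [mul_zero, zero_smul, add_zero]
    rw [← sum_range_reflect (fun a => (q ^ (i + 2 + (i + 1) - (a + 1)) *
      esym x (i + 2 + (i + 1) - (a + 1)) * qint q (a + 1)) • phi q x (a + 1))]
    refine sum_congr rfl fun r hr => ?_
    rw [mem_range] at hr
    rw [show i + 2 + (i + 1) - (i + 2 + r) = i + 1 - 1 - r + 1 by omega,
      show i + 2 + (i + 1) - (i + 1 - 1 - r + 1) = i + 2 + r by omega]
  rw [hSF, dU, dU, show 2 * (i + 1) + 1 = n from rfl, show 2 * (i + 1) - (i + 2) = i by omega,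
    show 2 * (i + 1) - i = i + 2 by omega, hX]
  linear_combination (norm := module) hY

/-- `D U(m,j) = [j] X + q^(j+1) [m-j] Y`. -/
theorem opD_uS : ∀ j m, 2 * j ≤ m + 2 → j ≤ m → opD (uS q x m j) = dU q x m j := by
  intro j
  induction j using Nat.strong_induction_on with
  | _ j ihj =>
    rcases j with - | j
    · intro m _ _
      simp [uS_zero, dU, qint_zero, yS]
    intro m
    induction m using Nat.strong_induction_on with
    | _ m ihm =>
      intro hm hjm
      rcases j with - | j
      · obtain ⟨a, rfl⟩ : ∃ a, m = a + 1 := ⟨m - 1, by omega⟩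
        rw [uS_one, opD_mAt, dU, xS, yS, sum_range_succ, sum_range_one, sum_range_one,
          show 0 + 1 = 1 from rfl, show a + 1 - 1 = a by omega]
        simp only [Nat.sub_zero, qint_one, qint_succ' q 1, mul_one, esym_zero, pow_zero, pow_one,
          show 1 + 1 - 1 = 1 by omega, show a + 1 + 1 - 1 = a + 1 by omega]
        module
      · rcases Nat.lt_or_ge m (2 * (j + 1) + 1) with hb | hb
        · obtain rfl : m = 2 * (j + 1) := by omega
          rw [uS_boundary, map_add, map_smul, map_smul, show j + 1 - 1 = j by omega,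
            dU_boundary]
          congr 2
          exact ihj j (by omega) _ (by omega) (by omega)
        · obtain ⟨p, rfl⟩ : ∃ p, m = p + 2 := ⟨m - 2, by omega⟩
          exact dU_step q x (by omega) (by omega) (ihj (j + 1) (by omega) p (by omega) (by omega))
            (ihj (j + 1) (by omega) (p + 1) (by omega) (by omega))
            (ihm (p + 1) (by omega) (by omega) (by omega))

end Vale.Agent.P066.Colour
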