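import Mathlib

/-!
Colour transfer operators for the chromatic quasisymmetric function of natural unit interval
graphs in which every vertex has at most two smaller neighbours.

`R` is a commutative ring, `q : R`, and `x : Fin N → R` gives the variables.  A state with one
active vertex is a function of its colour, a state with two active vertices is a function of
(colour of the newest, colour of the one before it).
-/

namespace Vale.Agent.P066.Colour

open Finset

variable {R : Type*} [CommRing R] {N : ℕ}

/-- Weight of the edge from the new vertex (colour `c`) to an older one (colour `d`). -/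
def wt (q : R) (c d : Fin N) : R := if c = d then 0 else if d < c then q else 1

/-- Append an isolated vertex. -/
def A0 (x : Fin N → R) (s : R) : Fin N → R := fun c => x c * s

/-- Append a vertex adjacent to the one active vertex. -/
def A1 (q : R) (x : Fin N → R) (u : Fin N → R) : Fin N → Fin N → R :=
  fun c d => x c * wt q c d * u d

/-- Deactivate the only active vertex. -/
def D1 (u : Fin N → R) : R := ∑ c, u c

/-- Deactivate the older of two active vertices. -/
def D2 (G : Fin N → Fin N → R) : Fin N → R := fun c => ∑ d, G c d

/-- `D ∘ A` on one active vertex. -/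
def P1 (q : R) (x : Fin N → R) (u : Fin N → R) : Fin N → R :=
  fun c => x c * ∑ d, wt q c d * u d

/-- `D ∘ A` on two active vertices. -/
def P2 (q : R) (x : Fin N → R) (G : Fin N → Fin N → R) : Fin N → Fin N → R :=
  fun c d => x c * wt q c d * ∑ g, wt q c g * G d g

/-- The operator `y = D A - A D` on one active vertex. -/
def yop (q : R) (x : Fin N → R) (u : Fin N → R) : Fin N → R :=
  fun c => x c * ∑ d, (wt q c d - 1) * u d

/-- A state: no, one or two active vertices. -/
abbrev St (R : Type*) (N : ℕ) := R × (Fin N → R) × (Fin N → Fin N → R)

/-- Append one vertex with `e` smaller neighbours. -/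
def step (q : R) (x : Fin N → R) (e : ℕ) (s : St R N) : St R N :=
  if e = 0 then (D1 (A0 x s.1), A0 x s.1, 0)
  else
    let G := if e = 1 then A1 q x s.2.1 else P2 q x s.2.2
    (D1 (D2 G), D2 G, G)

/-- The state after the first `n` vertices; `e v` is the number of smaller neighbours of `v`. -/
def st (q : R) (x : Fin N → R) (e : ℕ → ℕ) : ℕ → St R N
  | 0 => (1, 0, 0)
  | n + 1 => step q x (e n) (st q x e n)

/-- Weight of a colouring of the first `n` vertices, listed newest first. -/
def W (q : R) (x : Fin N → R) (e : ℕ → ℕ) : (n : ℕ) → (Fin n → Fin N) → R
  | 0, _ => 1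
  | n + 1, g =>
      x (g 0) * (∏ i : Fin n, if (i : ℕ) < e n then wt q (g 0) (g i.succ) else 1) *
        W q x e n (fun i => g i.succ)

end Vale.Agent.P066.Colour
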