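import Vale.Agent.P066.Colour.Atoms

/-!
The linear operators on one and two colours and the pointwise kernel identities behind
`D Z = y D (S - 1)` and `S Z Z = Z Z S`.
-/

namespace Vale.Agent.P066.Colour

open Finset

variable {R : Type*} [CommRing R] {N : ℕ}

/-- States with one active vertex. -/
abbrev V1 (R : Type*) (N : ℕ) := Fin N → R

/-- States with two active vertices. -/
abbrev V2 (R : Type*) (N : ℕ) := Fin N → Fin N → R

variable (q : R) (x : Fin N → R)

/-- `A` on one active vertex. -/
def opA : V1 R N →ₗ[R] V2 R N where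
  toFun u := A1 q x u
  map_add' u v := by funext c d; simp only [A1, Pi.add_apply]; ring
  map_smul' a u := by
    funext c d; simp only [A1, Pi.smul_apply, smul_eq_mul, RingHom.id_apply]; ring

/-- `D` on two active vertices. -/
def opD : V2 R N →ₗ[R] V1 R N where
  toFun G := D2 G
  map_add' u v := by funext c; simp [D2, sum_add_distrib]
  map_smul' a u := by funext c; simp [D2, mul_sum]

/-- `D` on one active vertex. -/
def opD1 : V1 R N →ₗ[R] R where
  toFun u := D1 u
  map_add' u v := by simp [D1, sum_add_distrib]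
  map_smul' a u := by simp [D1, mul_sum]

/-- `y = D A - A D` on one active vertex. -/
def opY : V1 R N →ₗ[R] V1 R N where
  toFun u := yop q x u
  map_add' u v := by
    funext c; simp only [yop, Pi.add_apply, mul_add, sum_add_distrib]
  map_smul' a u := by
    funext c
    simp only [yop, Pi.smul_apply, smul_eq_mul, RingHom.id_apply, mul_sum]
    exact sum_congr rfl fun d _ => by ring

/-- `Z = D A - A D` on two active vertices. -/
def opZ : V2 R N →ₗ[R] V2 R N where
  toFun G := fun c d => x c * wt q c d * ∑ g, (wt q c g - 1) * G d g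
  map_add' u v := by funext c d; simp only [Pi.add_apply, mul_add, sum_add_distrib]
  map_smul' a u := by
    funext c d
    simp only [Pi.smul_apply, smul_eq_mul, RingHom.id_apply, mul_sum]
    exact sum_congr rfl fun g _ => by ring

/-- The symmetriser `T + q`. -/
def opS : V2 R N →ₗ[R] V2 R N where
  toFun u := fun c d => wt q c d * (u c d + u d c)
  map_add' u v := by funext c d; simp only [Pi.add_apply]; ring
  map_smul' a u := by
    funext c d; simp only [Pi.smul_apply, smul_eq_mul, RingHom.id_apply]; ring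

/-- `D A` on two active vertices. -/
def opP : V2 R N →ₗ[R] V2 R N := opA q x ∘ₗ opD + opZ q x

/-- `E = (T + q) Z`. -/
def opE : V2 R N →ₗ[R] V2 R N := opS q ∘ₗ opZ q x

/-- `Q = Z Z`. -/
def opQ : V2 R N →ₗ[R] V2 R N := opZ q x ∘ₗ opZ q x

theorem P2_eq (G : V2 R N) : P2 q x G = opP q x G := by
  funext c d
  change x c * wt q c d * ∑ g, wt q c g * G d g =
    x c * wt q c d * (∑ g, G d g) + x c * wt q c d * ∑ g, (wt q c g - 1) * G d g
  simp only [sub_mul, one_mul, sum_sub_distrib]
  ring

/-- `Z` sees only off-diagonal entries as its output. -/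
theorem opZ_diag (G : V2 R N) (c : Fin N) : opZ q x G c c = 0 := by
  change x c * wt q c c * _ = 0
  rw [wt_self]; ring

theorem opA_diag (u : V1 R N) (c : Fin N) : opA q x u c c = 0 := by
  change x c * wt q c c * _ = 0
  rw [wt_self]; ring

/-- States with two active vertices fixed by `T`. -/
def Fixed (G : V2 R N) : Prop := (∀ c, G c c = 0) ∧ opS q G = (1 + q) • G

theorem wt_add_wt {c d : Fin N} (h : c ≠ d) : wt q c d + wt q d c = 1 + q := by
  rcases lt_or_gt_of_ne h with h | h
  · rw [wt_lt q h, wt_gt q h]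
  · rw [wt_gt q h, wt_lt q h]; ring

theorem fixed_opS (u : V2 R N) : Fixed q (opS q u) := by
  refine ⟨fun c => ?_, ?_⟩
  · change wt q c c * _ = 0
    rw [wt_self]; ring
  · funext c d
    change wt q c d * (wt q c d * (u c d + u d c) + wt q d c * (u d c + u c d)) =
      (1 + q) * (wt q c d * (u c d + u d c))
    rcases eq_or_ne c d with rfl | h
    · rw [wt_self]; ring
    · rw [← wt_add_wt q h]; ring

theorem fixed_of_isSym {G : V2 R N} (hG : IsSym q G) : Fixed q G := by
  obtain ⟨H, hH, hG⟩ := hG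
  refine ⟨fun c => by rw [hG, wt_self, zero_mul], ?_⟩
  funext c d
  change wt q c d * (G c d + G d c) = (1 + q) * G c d
  rw [hG c d, hG d c, hH d c]
  rcases eq_or_ne c d with rfl | h
  · rw [wt_self]; ring
  · rw [← wt_add_wt q h]; ring

variable {q}

theorem Fixed.add {G H : V2 R N} (hG : Fixed q G) (hH : Fixed q H) : Fixed q (G + H) :=
  ⟨fun c => by simp [hG.1 c, hH.1 c], by rw [map_add, hG.2, hH.2, smul_add]⟩

theorem Fixed.smul (a : R) {G : V2 R N} (hG : Fixed q G) : Fixed q (a • G) :=
  ⟨fun c => by simp [hG.1 c], by rw [map_smul, hG.2, smul_comm]⟩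

theorem Fixed.sub {G H : V2 R N} (hG : Fixed q G) (hH : Fixed q H) : Fixed q (G - H) := by
  rw [sub_eq_add_neg, ← neg_one_smul R H]
  exact hG.add (hH.smul _)

theorem fixed_zero : Fixed q (0 : V2 R N) := ⟨fun _ => rfl, by simp⟩

theorem Fixed.sum {ι : Type*} (s : Finset ι) {G : ι → V2 R N} (hG : ∀ i ∈ s, Fixed q (G i)) :
    Fixed q (∑ i ∈ s, G i) :=
  Finset.sum_induction G _ (fun _ _ => Fixed.add) fixed_zero hG

variable (q)

theorem kernelDZ (c d g : Fin N) (h : d ≠ g) :
    wt q c d * (wt q c g - 1) =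
      (wt q c d - 1) * (wt q d g - 1) + (wt q c g - 1) * wt q g d := by
  rcases lt_trichotomy c d with h1 | rfl | h1
  · rw [wt_lt q h1]
    rcases lt_or_gt_of_ne h with h3 | h3
    · rw [wt_lt q (h1.trans h3)]; ring
    · rw [wt_lt q h3]; ring
  · rcases lt_or_gt_of_ne h with h3 | h3
    · rw [wt_self, wt_lt q h3]; ring
    · rw [wt_self, wt_gt q h3, wt_lt q h3]; ring
  · rw [wt_gt q h1]
    rcases lt_or_gt_of_ne h with h3 | h3
    · rw [wt_lt q h3, wt_gt q h3]; ring
    · rw [wt_gt q h3, wt_lt q h3, wt_gt q (h3.trans h1)]; ring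

/-- `D Z u = y D ((T + q - 1) u)`. -/
theorem opD_opZ (u : V2 R N) (hu : ∀ c, u c c = 0) :
    opD (opZ q x u) = opY q x (opD (opS q u - u)) := by
  funext c
  change ∑ d, x c * wt q c d * ∑ g, (wt q c g - 1) * u d g =
    x c * ∑ d, (wt q c d - 1) * ∑ g, (wt q d g * (u d g + u g d) - u d g)
  simp only [mul_sum]
  have h1 : ∑ d, ∑ g, x c * ((wt q c d - 1) * (wt q d g * (u d g + u g d) - u d g)) =
      ∑ d, ∑ g, x c * ((wt q c d - 1) * (wt q d g - 1) + (wt q c g - 1) * wt q g d) * u d g := by
    have h2 : ∀ d g, x c * ((wt q c d - 1) * (wt q d g * (u d g + u g d) - u d g)) =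
        x c * ((wt q c d - 1) * (wt q d g - 1)) * u d g +
          x c * ((wt q c d - 1) * wt q d g) * u g d := fun d g => by ring
    rw [sum_congr rfl fun d _ => sum_congr rfl fun g _ => h2 d g]
    simp only [sum_add_distrib, mul_add (x c), add_mul]
    congr 1
    exact sum_comm
  rw [h1]
  refine sum_congr rfl fun d _ => sum_congr rfl fun g _ => ?_
  rcases eq_or_ne d g with rfl | h
  · rw [hu]; ring
  · rw [← kernelDZ q c d g h]; ring

theorem opD_opZ_fixed {G : V2 R N} (hG : Fixed q G) :
    opD (opZ q x G) = q • opY q x (opD G) := by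
  rw [opD_opZ q x G hG.1, hG.2, ← map_smul, ← map_smul]
  congr 2
  module

theorem kernelSQ (c d g h : Fin N) (hcd : c ≠ d) (hgh : g ≠ h) :
    wt q c d * ((wt q c g - 1) * wt q d g * (wt q d h - 1)) +
      wt q d c * ((wt q d g - 1) * wt q c g * (wt q c h - 1)) =
    (wt q c g - 1) * wt q d g * (wt q d h - 1) * wt q g h +
      (wt q c h - 1) * wt q d h * (wt q d g - 1) * wt q h g := by
  rcases lt_or_gt_of_ne hcd with hcd | hcd <;> rcases lt_or_gt_of_ne hgh with hgh | hgh <;>
    rcases lt_trichotomy c g with h1 | h1 | h1 <;> rcases lt_trichotomy d g with h2 | h2 | h2 <;>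
    rcases lt_trichotomy c h with h3 | h3 | h3 <;> rcases lt_trichotomy d h with h4 | h4 | h4 <;>
    first
      | (exfalso; omega)
      | (subst_vars
         simp only [wt_self, wt_lt q, wt_gt q, *]
         ring)

/-- `S Q = Q S`. -/
theorem opS_opQ (u : V2 R N) (hu : ∀ c, u c c = 0) :
    opS q (opQ q x u) = opQ q x (opS q u) := by
  funext c d
  have hK : ∀ (v : V2 R N) (a b : Fin N), opQ q x v a b =
      ∑ g, ∑ h, x a * x b * wt q a b *
        ((wt q a g - 1) * wt q b g * (wt q b h - 1)) * v g h := by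
    intro v a b
    change x a * wt q a b * ∑ g, (wt q a g - 1) *
      (x b * wt q b g * ∑ h, (wt q b h - 1) * v g h) = _
    simp only [mul_sum]
    exact sum_congr rfl fun g _ => sum_congr rfl fun h _ => by ring
  change wt q c d * (opQ q x u c d + opQ q x u d c) = _
  rw [hK, hK, hK]
  change _ = ∑ g, ∑ h, _ * (wt q g h * (u g h + u h g))
  simp only [← sum_add_distrib, mul_sum]
  have h2 : ∀ g h, x c * x d * wt q c d * ((wt q c g - 1) * wt q d g * (wt q d h - 1)) *
      (wt q g h * (u g h + u h g)) =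
      x c * x d * wt q c d * ((wt q c g - 1) * wt q d g * (wt q d h - 1)) * wt q g h * u g h +
      x c * x d * wt q c d * ((wt q c g - 1) * wt q d g * (wt q d h - 1)) * wt q g h * u h g :=
    fun g h => by ring
  simp only [h2, sum_add_distrib]
  rw [sum_comm (f := fun g h => x c * x d * wt q c d *
    ((wt q c g - 1) * wt q d g * (wt q d h - 1)) * wt q g h * u h g)]
  simp only [← sum_add_distrib]
  refine sum_congr rfl fun g _ => sum_congr rfl fun h _ => ?_
  rcases eq_or_ne g h with rfl | hgh
  · rw [hu]; ring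
  rcases eq_or_ne c d with rfl | hcd
  · rw [wt_self]; ring
  linear_combination (x c * x d * wt q c d * u g h) * kernelSQ q c d g h hcd hgh

theorem Fixed.opQ {G : V2 R N} (hG : Fixed q G) : Fixed q (opQ q x G) :=
  ⟨fun c => opZ_diag q x _ c, by rw [opS_opQ q x G hG.1, hG.2, map_smul]⟩

/-- `E Q = Q E`. -/
theorem opE_opQ (G : V2 R N) : opE q x (opQ q x G) = opQ q x (opE q x G) :=
  opS_opQ q x _ (opZ_diag q x G)

/-- `D (Q G) = y (D (E G) - q y D G)` for fixed `G`. -/
theorem opD_opQ {G : V2 R N} (hG : Fixed q G) :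
    opD (opQ q x G) = opY q x (opD (opE q x G) - q • opY q x (opD G)) := by
  change opD (opZ q x (opZ q x G)) = _
  rw [opD_opZ q x _ (opZ_diag q x G), ← opD_opZ_fixed q x hG, map_sub opD]
  rfl

end Vale.Agent.P066.Colour
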