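import Vale.Agent.P066.Colour.Atoms2

/-!
The atoms `U(m,j)` and the formula for `E U(m,j)`.
-/

namespace Vale.Agent.P066.Colour

open Finset

variable {R : Type*} [CommRing R] {N : ℕ} (q : R) (x : Fin N → R)

/-- The correction in the recursion for `uS`. -/
def gam (m k : ℕ) : V2 R N :=
  (∑ r ∈ range k, (q ^ r * qint q (k - r) * esym x r) • gAt q x (m - r)) +
    q ^ k • ∑ t ∈ range k, (qint q (k - t) * esym x (m - t)) • gAt q x t

/-- The symmetric atoms: `U(m,0) = 0` and `U(m,j+1) = Q U(m-2,j) + Γ(m,j+1)`. -/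
def uS : ℕ → ℕ → V2 R N
  | _, 0 => 0
  | m, j + 1 => opQ q x (uS (m - 2) j) + gam q x m (j + 1)

/-- The correction in the formula for `E U(m,j)`. -/
def psi (n j : ℕ) : V2 R N :=
  (∑ t ∈ range (j + 1), (q ^ t * qint q (j + 1 - t) * esym x t) • mAt q x (n - t)) +
    q ^ (j + 1) • ∑ s ∈ range j, (qint q (j - s) * esym x (n - s)) • mAt q x s

theorem uS_zero (m : ℕ) : uS q x m 0 = 0 := by rw [uS]

theorem uS_succ (m j : ℕ) :
    uS q x m (j + 1) = opQ q x (uS q x (m - 2) j) + gam q x m (j + 1) := by rw [uS]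

theorem gam_zero (m : ℕ) : gam q x m 0 = 0 := by simp [gam]

theorem gam_one (m : ℕ) : gam q x m 1 = mAt q x m := by
  simp only [gam, sum_range_one, Nat.sub_zero, qint_one, esym_zero, gAt_zero, mAt_eq q x m]
  module

theorem uS_one (m : ℕ) : uS q x m 1 = mAt q x m := by
  rw [uS_succ, uS_zero, map_zero, zero_add, gam_one]

theorem fixed_gam (m k : ℕ) : Fixed q (gam q x m k) :=
  (Fixed.sum _ fun _ _ => (fixed_gAt q x _).smul _).add
    ((Fixed.sum _ fun _ _ => (fixed_gAt q x _).smul _).smul _)

theorem fixed_uS : ∀ j m, Fixed q (uS q x m j)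
  | 0, m => by rw [uS_zero]; exact fixed_zero
  | j + 1, m => by rw [uS_succ]; exact (Fixed.opQ q x (fixed_uS j _)).add (fixed_gam q x m _)

theorem qint_split {a b c : ℕ} (h : c = a + b) : qint q c = qint q a + q ^ a * qint q b :=
  h ▸ qint_add q a b

/-- The scalar identity behind `E Γ`. -/
theorem scalar_EGamma (M j : ℕ) :
    q ^ (j + 2) * qint q (j + 2) * esym x (M + 1) +
      q * (∑ r ∈ range (j + 1), q ^ r * qint q (j + 1 - r) * esym x r * esym x (M + 1 - r)) +
      q ^ (j + 2) * (∑ t ∈ range (j + 1), qint q (j + 1 - t) * esym x (M - t) * esym x (t + 1)) =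
    q * (∑ r ∈ range (j + 2), q ^ r * qint q (j + 2 - r) * esym x r * esym x (M + 1 - r)) +
      q ^ (j + 3) *
        ∑ s ∈ range (j + 1), qint q (j + 1 - s) * esym x (M + 1 - s) * esym x s := by
  have hS3 : ∑ r ∈ range (j + 2), q ^ r * qint q (j + 2 - r) * esym x r * esym x (M + 1 - r) =
      (∑ r ∈ range (j + 1), q ^ r * qint q (j + 1 - r) * esym x r * esym x (M + 1 - r)) +
        q ^ (j + 1) * ∑ r ∈ range (j + 2), esym x r * esym x (M + 1 - r) := by
    rw [sum_range_succ _ (j + 1), sum_range_succ (fun r => esym x r * esym x (M + 1 - r)) (j + 1),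
      mul_add, mul_sum, ← add_assoc, ← sum_add_distrib, show j + 2 - (j + 1) = 1 by omega,
      qint_one]
    congr 1
    · refine sum_congr rfl fun r hr => ?_
      rw [mem_range] at hr
      obtain ⟨d, hd⟩ : ∃ d, j + 1 = r + d := ⟨j + 1 - r, by omega⟩
      rw [show j + 2 - r = d + 1 by omega, show j + 1 - r = d by omega, qint_succ, hd]
      ring
    · ring
  have hL : qint q (j + 2) * esym x (M + 1) +
      (∑ t ∈ range (j + 1), qint q (j + 1 - t) * esym x (M - t) * esym x (t + 1)) =
      (∑ r ∈ range (j + 2), esym x r * esym x (M + 1 - r)) +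
        q * ∑ s ∈ range (j + 1), qint q (j + 1 - s) * esym x (M + 1 - s) * esym x s := by
    have h1 : qint q (j + 2) * esym x (M + 1) +
        (∑ t ∈ range (j + 1), qint q (j + 1 - t) * esym x (M - t) * esym x (t + 1)) =
        ∑ r ∈ range (j + 2), qint q (j + 2 - r) * esym x (M + 1 - r) * esym x r := by
      rw [sum_range_succ' _ (j + 1), add_comm]
      congr 1
      · exact sum_congr rfl fun t _ => by
          rw [show j + 2 - (t + 1) = j + 1 - t by omega, show M + 1 - (t + 1) = M - t by omega]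
      · simp [esym_zero]
    rw [h1, mul_sum, sum_range_succ _ (j + 1),
      sum_range_succ (fun r => esym x r * esym x (M + 1 - r)) (j + 1),
      show j + 2 - (j + 1) = 1 by omega, qint_one, add_right_comm, ← sum_add_distrib]
    congr 1
    · refine sum_congr rfl fun r hr => ?_
      rw [mem_range] at hr
      rw [show j + 2 - r = (j + 1 - r) + 1 by omega, qint_succ']
      ring
    · ring
  linear_combination (-q) * hS3 + q ^ (j + 2) * hL

/-- The identity behind the induction step for `E U`. -/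
theorem opE_gam {M j : ℕ} (hM : 2 * j + 1 ≤ M) :
    opE q x (gam q x M (j + 1)) + psi q x (M + 1) (j + 1) =
      opQ q x (psi q x (M - 1) j) + q • gam q x (M + 1) (j + 1) +
        gam q x (M + 1) (j + 2) := by
  have hA : opE q x (∑ r ∈ range (j + 1),
      (q ^ r * qint q (j + 1 - r) * esym x r) • gAt q x (M - r)) =
      opQ q x (∑ t ∈ range (j + 1), (q ^ t * qint q (j + 1 - t) * esym x t) •
        mAt q x (M - 1 - t)) +
      q • (∑ r ∈ range (j + 1), (q ^ r * qint q (j + 1 - r) * esym x r) • gAt q x (M + 1 - r)) -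
      (q * ∑ r ∈ range (j + 1), q ^ r * qint q (j + 1 - r) * esym x r * esym x (M + 1 - r)) •
        F2 q x 0 := by
    simp only [map_sum, map_smul, smul_sum, mul_sum, sum_smul, ← sum_add_distrib,
      ← sum_sub_distrib]
    refine sum_congr rfl fun r hr => ?_
    rw [mem_range] at hr
    rw [show M - r = (M - 1 - r) + 1 by omega, opE_gAt,
      show M - 1 - r + 2 = M + 1 - r by omega]
    module
  have hB : opE q x (∑ t ∈ range (j + 1), (qint q (j + 1 - t) * esym x (M - t)) • gAt q x t) =
      opQ q x (∑ s ∈ range j, (qint q (j - s) * esym x (M - 1 - s)) • mAt q x s) +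
      q • (∑ t ∈ range (j + 1), (qint q (j + 1 - t) * esym x (M - t)) • gAt q x (t + 1)) -
      (q * ∑ t ∈ range (j + 1), qint q (j + 1 - t) * esym x (M - t) * esym x (t + 1)) •
        F2 q x 0 := by
    simp only [sum_range_succ' _ j, map_add, map_sum, map_smul, opE_gAt_zero, smul_sum,
      smul_add, mul_add, add_smul, mul_sum, sum_smul]
    have h : ∀ s ∈ range j,
        (qint q (j + 1 - (s + 1)) * esym x (M - (s + 1))) • opE q x (gAt q x (s + 1)) =
        (qint q (j - s) * esym x (M - 1 - s)) • opQ q x (mAt q x s) +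
        q • ((qint q (j + 1 - (s + 1)) * esym x (M - (s + 1))) • gAt q x (s + 1 + 1)) -
        (q * (qint q (j + 1 - (s + 1)) * esym x (M - (s + 1)) * esym x (s + 1 + 1))) •
          F2 q x 0 := fun s _ => by
      rw [opE_gAt, show j + 1 - (s + 1) = j - s by omega, show M - (s + 1) = M - 1 - s by omega,
        show s + 2 = s + 1 + 1 from rfl]
      module
    rw [sum_congr rfl h, sum_sub_distrib, sum_add_distrib]
    module
  have hsplit : ∑ t ∈ range (j + 2), (qint q (j + 2 - t) * esym x (M + 1 - t)) • gAt q x t =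
      (∑ t ∈ range (j + 1), (qint q (j + 1 - t) * esym x (M - t)) • gAt q x (t + 1)) +
        (qint q (j + 2) * esym x (M + 1)) • F2 q x 0 := by
    rw [sum_range_succ' _ (j + 1)]
    congr 1
    · exact sum_congr rfl fun t _ => by
        rw [show j + 2 - (t + 1) = j + 1 - t by omega, show M + 1 - (t + 1) = M - t by omega]
    · rw [gAt_zero]; rfl
  have hC : psi q x (M + 1) (j + 1) =
      (∑ r ∈ range (j + 2), (q ^ r * qint q (j + 2 - r) * esym x r) • gAt q x (M + 1 - r)) +
      (q * ∑ r ∈ range (j + 2), q ^ r * qint q (j + 2 - r) * esym x r * esym x (M + 1 - r)) •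
        F2 q x 0 +
      q ^ (j + 2) • (∑ s ∈ range (j + 1), (qint q (j + 1 - s) * esym x (M + 1 - s)) • gAt q x s) +
      (q ^ (j + 3) * ∑ s ∈ range (j + 1),
        qint q (j + 1 - s) * esym x (M + 1 - s) * esym x s) • F2 q x 0 := by
    simp only [psi, mAt_eq, smul_add, sum_add_distrib, smul_sum, mul_sum, sum_smul, smul_smul]
    rw [← add_assoc]
    congr 1
    · congr 1
      congr 1
      exact sum_congr rfl fun r _ => by module
    · exact sum_congr rfl fun r _ => by module
  have hs := congrArg (fun a => a • F2 q x 0) (scalar_EGamma q x M j)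
  simp only [add_smul] at hs
  rw [hC, gam, gam, gam, map_add, map_smul, hA, hB, hsplit, psi, map_add, map_smul]
  linear_combination (norm := module) -hs

/-- `E U(m,j) = q U(m+1,j) + U(m+1,j+1) - Ψ(m+1,j)`. -/
theorem opE_uS : ∀ j m, 2 * j ≤ m + 1 →
    opE q x (uS q x m j) + psi q x (m + 1) j =
      q • uS q x (m + 1) j + uS q x (m + 1) (j + 1) := by
  intro j
  induction j with
  | zero =>
    intro m _
    simp [uS_zero, uS_one, psi, qint_one, esym_zero]
  | succ j ih =>
    intro m hm
    rw [uS_succ q x m j, uS_succ q x (m + 1) j, uS_succ q x (m + 1) (j + 1), map_add,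
      opE_opQ, add_assoc, opE_gam q x (by omega : 2 * j + 1 ≤ m)]
    rcases Nat.lt_or_ge m 2 with hm2 | hm2
    · obtain rfl : j = 0 := by omega
      obtain rfl : m = 1 := by omega
      simp [uS_zero, uS_one, psi, qint_one, esym_zero]
      module
    · obtain ⟨p, rfl⟩ : ∃ p, m = p + 2 := ⟨m - 2, by omega⟩
      have h := congrArg (opQ q x) (ih p (by omega))
      simp only [map_add, map_smul] at h
      rw [show p + 2 - 2 = p by omega, show p + 2 + 1 - 2 = p + 1 by omega,
        show p + 2 - 1 = p + 1 by omega]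
      linear_combination (norm := module) h

/-- `Σ_r q^r e_r f_{n-r}`. -/
def sumF (n : ℕ) : V2 R N := ∑ r ∈ range (n + 1), (q ^ r * esym x r) • F2 q x (n - r)

theorem opQ_sumF (n : ℕ) :
    opQ q x (sumF q x n) + (∑ r ∈ range (n + 3), (q ^ r * esym x r) • gAt q x (n + 2 - r)) =
      sumF q x (n + 2) := by
  simp only [sumF, show n + 2 + 1 = n + 1 + 1 + 1 from rfl,
    sum_range_succ _ (n + 1 + 1), sum_range_succ _ (n + 1), map_sum, map_smul]
  rw [show n + 2 - (n + 1) = 1 by omega, show n + 2 - (n + 1 + 1) = 0 by omega, gAt_one,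
    gAt_zero, ← add_assoc, ← add_assoc, ← sum_add_distrib]
  congr 1
  congr 1
  refine sum_congr rfl fun r hr => ?_
  rw [mem_range] at hr
  rw [opQ_F2, show n - r + 2 = n + 2 - r by omega]
  module

theorem gam_boundary (i : ℕ) :
    gam q x (2 * i + 2) (i + 2) = q ^ 2 • gam q x (2 * i + 2) i +
      (1 + q) • ∑ r ∈ range (2 * i + 3), (q ^ r * esym x r) • gAt q x (2 * i + 2 - r) := by
  set J := i + 1 with hJ
  have hsum : ∑ r ∈ range (2 * i + 3), (q ^ r * esym x r) • gAt q x (2 * i + 2 - r) =
      (∑ r ∈ range J, (q ^ r * esym x r) • gAt q x (2 * i + 2 - r)) +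
        (q ^ J * esym x J) • gAt q x J +
        ∑ t ∈ range J, (q ^ (2 * i + 2 - t) * esym x (2 * i + 2 - t)) • gAt q x t := by
    rw [show 2 * i + 3 = (J + 1) + J by omega, sum_range_add, sum_range_succ,
      show 2 * i + 2 - J = J by omega]
    congr 1
    rw [← sum_range_reflect (fun t => (q ^ (2 * i + 2 - t) * esym x (2 * i + 2 - t)) • gAt q x t)]
    refine sum_congr rfl fun t ht => ?_
    rw [mem_range] at ht
    rw [show 2 * i + 2 - (J - 1 - t) = J + 1 + t by omega,
      show 2 * i + 2 - (J + 1 + t) = J - 1 - t by omega]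
  have hlow : gam q x (2 * i + 2) i =
      (∑ r ∈ range J, (q ^ r * qint q (i - r) * esym x r) • gAt q x (2 * i + 2 - r)) +
        q ^ i • ∑ t ∈ range J, (qint q (i - t) * esym x (2 * i + 2 - t)) • gAt q x t := by
    simp [gam, hJ, sum_range_succ, qint_zero]
  rw [hsum, hlow, gam, show i + 2 = J + 1 by omega, sum_range_succ _ J, sum_range_succ _ J,
    Nat.add_sub_cancel_left, qint_one, show 2 * i + 2 - J = J by omega]
  have h1 : ∑ r ∈ range J, (q ^ r * qint q (J + 1 - r) * esym x r) • gAt q x (2 * i + 2 - r) =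
      q ^ 2 • (∑ r ∈ range J, (q ^ r * qint q (i - r) * esym x r) • gAt q x (2 * i + 2 - r)) +
        (1 + q) • ∑ r ∈ range J, (q ^ r * esym x r) • gAt q x (2 * i + 2 - r) := by
    simp only [smul_sum, ← sum_add_distrib]
    refine sum_congr rfl fun r hr => ?_
    rw [mem_range] at hr
    rw [show J + 1 - r = (i - r) + 1 + 1 by omega, qint_succ', qint_succ']
    module
  have h2 : q ^ (J + 1) • (∑ t ∈ range J,
      (qint q (J + 1 - t) * esym x (2 * i + 2 - t)) • gAt q x t) =
      (q ^ 2 * q ^ i) • (∑ t ∈ range J,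
        (qint q (i - t) * esym x (2 * i + 2 - t)) • gAt q x t) +
      (1 + q) • ∑ t ∈ range J,
        (q ^ (2 * i + 2 - t) * esym x (2 * i + 2 - t)) • gAt q x t := by
    simp only [smul_sum, ← sum_add_distrib]
    refine sum_congr rfl fun t ht => ?_
    rw [mem_range] at ht
    obtain ⟨d, rfl⟩ : ∃ d, i = t + d := ⟨i - t, by omega⟩
    rw [show t + d - t = d by omega, show J + 1 - t = d + 1 + 1 by omega, qint_succ, qint_succ,
      show 2 * (t + d) + 2 - t = t + d + d + 2 by omega, hJ]
    module
  rw [smul_add, h1, h2]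
  module

/-- `U(2i,i+1) = q² U(2i,i-1) + [2] Σ_r q^r e_r f_{2i-r}`. -/
theorem uS_boundary : ∀ i, uS q x (2 * i) (i + 1) =
    q ^ 2 • uS q x (2 * i) (i - 1) + (1 + q) • sumF q x (2 * i) := by
  intro i
  induction i with
  | zero => simp [uS_one, uS_zero, sumF, mAt_zero, esym_zero]
  | succ i ih =>
    have h : uS q x (2 * (i + 1)) i = opQ q x (uS q x (2 * i) (i - 1)) +
        gam q x (2 * (i + 1)) i := by
      rcases i with - | i
      · simp [uS_zero, gam_zero]
      · rw [uS_succ, show 2 * (i + 1 + 1) - 2 = 2 * (i + 1) by omega,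
          show i + 1 - 1 = i by omega]
    rw [uS_succ q x _ (i + 1), show 2 * (i + 1) - 2 = 2 * i by omega, ih,
      show i + 1 - 1 = i by omega, h]
    rw [show 2 * (i + 1) = 2 * i + 2 by ring, gam_boundary, ← opQ_sumF]
    simp only [map_add, map_smul]
    module

end Vale.Agent.P066.Colour
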